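import Mathlib

/-!
Zero-sum tuples of divisors of `K` yield expansions into distinct unit fractions.
-/

namespace Vale.Agent.P012

open Finset

/-- The `k`-tuples with entries in `X` whose sum is divisible by `g`. -/
noncomputable def zeroTuples (X : Finset ℕ) (k g : ℕ) : Finset (Fin k → ℕ) :=
  (Fintype.piFinset fun _ : Fin k => X).filter fun τ => g ∣ ∑ j, τ j

lemma card_restrict_le (X : Finset ℕ) (k : ℕ) (i : Fin k) (T : Finset (Fin k → ℕ))
    (hT : T ⊆ Fintype.piFinset fun _ : Fin k => X)
    (hinj : ∀ τ ∈ T, ∀ τ' ∈ T, (∀ l, l ≠ i → τ l = τ' l) → τ = τ') :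
    T.card ≤ X.card ^ (k - 1) := by
  classical
  have hcard : (Fintype.piFinset fun _ : {l : Fin k // l ≠ i} => X).card = X.card ^ (k - 1) := by
    rw [Fintype.card_piFinset, Finset.prod_const, Finset.card_univ]
    congr 1
    rw [Fintype.card_subtype_compl]
    simp
  rw [← hcard]
  refine Finset.card_le_card_of_injOn (fun τ l => τ l.1) ?_ ?_
  · intro τ hτ
    have := hT hτ
    rw [Finset.mem_coe, Fintype.mem_piFinset] at *
    intro l
    exact this l.1
  · intro τ hτ τ' hτ' h
    apply hinj τ hτ τ' hτ'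
    intro l hl
    exact congrFun h ⟨l, hl⟩

theorem exists_unit_fractions (X : Finset ℕ) (hXpos : ∀ x ∈ X, 0 < x) (k g K : ℕ)
    (hk : 2 ≤ k) (hg : 0 < g) (hK : 0 < K) (hdvd : ∀ x ∈ X, x ∣ K) (F : Finset ℕ)
    (hcount : (k ^ 2 + k * F.card) * X.card ^ (k - 1) < (zeroTuples X k g).card) :
    ∃ S : Finset ℕ, Disjoint S F ∧ S.card = k ∧ ∑ n ∈ S, (1 : ℚ) / n = (g : ℚ) / K := by
  classical
  -- the bad tuples
  set P := Fintype.piFinset fun _ : Fin k => X with hP
  let B1 : Fin k × Fin k → Finset (Fin k → ℕ) := fun ij => P.filter fun τ => τ ij.1 = τ ij.2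
  let B2 : Fin k × ℕ → Finset (Fin k → ℕ) :=
    fun jf => P.filter fun τ => (∑ l, τ l) * K = jf.2 * g * τ jf.1
  have hB1 : ∀ ij ∈ (univ : Finset (Fin k)).offDiag, (B1 ij).card ≤ X.card ^ (k - 1) := by
    rintro ⟨i, j⟩ hij
    have hij' : i ≠ j := by simpa using hij
    refine card_restrict_le X k i _ (filter_subset _ _) ?_
    intro τ hτ τ' hτ' h
    have h1 : τ i = τ j := (mem_filter.1 hτ).2
    have h2 : τ' i = τ' j := (mem_filter.1 hτ').2
    funext l
    by_cases hl : l = i
    · subst hl
      rw [h1, h2]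
      exact h j (Ne.symm hij')
    · exact h l hl
  have hB2 : ∀ jf ∈ (univ : Finset (Fin k)) ×ˢ F, (B2 jf).card ≤ X.card ^ (k - 1) := by
    rintro ⟨j, f⟩ -
    -- choose `i ≠ j`
    obtain ⟨i, hij⟩ : ∃ i : Fin k, i ≠ j := by
      by_contra hne
      push Not at hne
      have : Fintype.card (Fin k) ≤ 1 := Fintype.card_le_one_iff.2 fun a b => by
        rw [hne a, hne b]
      simp at this
      omega
    refine card_restrict_le X k i _ (filter_subset _ _) ?_
    intro τ hτ τ' hτ' h
    have h1 : (∑ l, τ l) * K = f * g * τ j := (mem_filter.1 hτ).2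
    have h2 : (∑ l, τ' l) * K = f * g * τ' j := (mem_filter.1 hτ').2
    have hj : τ j = τ' j := h j (Ne.symm hij)
    have hsum : ∑ l, τ l = ∑ l, τ' l := by
      apply Nat.eq_of_mul_eq_mul_right hK
      rw [h1, h2, hj]
    have hi : τ i = τ' i := by
      have e1 := Finset.add_sum_erase (univ : Finset (Fin k)) τ (mem_univ i)
      have e2 := Finset.add_sum_erase (univ : Finset (Fin k)) τ' (mem_univ i)
      have e3 : ∑ l ∈ univ.erase i, τ l = ∑ l ∈ univ.erase i, τ' l :=
        Finset.sum_congr rfl fun l hl => h l (Finset.ne_of_mem_erase hl)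
      omega
    funext l
    by_cases hl : l = i
    · subst hl; exact hi
    · exact h l hl
  -- count
  set Bad : Finset (Fin k → ℕ) :=
    ((univ : Finset (Fin k)).offDiag.biUnion B1) ∪ (((univ : Finset (Fin k)) ×ˢ F).biUnion B2)
    with hBad
  have hBadcard : Bad.card ≤ (k ^ 2 + k * F.card) * X.card ^ (k - 1) := by
    calc Bad.card ≤ _ := card_union_le _ _
      _ ≤ (univ : Finset (Fin k)).offDiag.card * X.card ^ (k - 1)
            + ((univ : Finset (Fin k)) ×ˢ F).card * X.card ^ (k - 1) :=
          add_le_add (card_biUnion_le_card_mul _ _ _ hB1) (card_biUnion_le_card_mul _ _ _ hB2)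
      _ ≤ (k ^ 2 + k * F.card) * X.card ^ (k - 1) := by
          rw [add_mul]
          apply add_le_add
          · apply Nat.mul_le_mul_right
            rw [offDiag_card]
            simp only [card_univ, Fintype.card_fin]
            rw [sq]
            exact Nat.sub_le _ _
          · apply Nat.mul_le_mul_right
            simp
  -- a good tuple
  obtain ⟨τ, hτZ, hτBad⟩ : ∃ τ ∈ zeroTuples X k g, τ ∉ Bad := by
    by_contra hno
    push Not at hno
    have : (zeroTuples X k g).card ≤ Bad.card := card_le_card hno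
    omega
  have hτP : τ ∈ P := (mem_filter.1 hτZ).1
  have hτmem : ∀ j, τ j ∈ X := fun j => Fintype.mem_piFinset.1 hτP j
  have hτpos : ∀ j, 0 < τ j := fun j => hXpos _ (hτmem j)
  obtain ⟨c, hc⟩ : g ∣ ∑ j, τ j := (mem_filter.1 hτZ).2
  have hk0 : 0 < k := by omega
  have hsumpos : 0 < ∑ j, τ j :=
    Finset.sum_pos (fun j _ => hτpos j) ⟨⟨0, hk0⟩, mem_univ _⟩
  have hcpos : 0 < c := by
    rcases Nat.eq_zero_or_pos c with h | h
    · subst h
      simp only [mul_zero] at hc
      omega
    · exact h
  -- the denominators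
  let n : Fin k → ℕ := fun j => c * (K / τ j)
  have hn : ∀ j, n j * τ j = c * K := by
    intro j
    simp only [n]
    rw [mul_assoc, Nat.div_mul_cancel (hdvd _ (hτmem j))]
  have hnpos : ∀ j, 0 < n j := by
    intro j
    have h := hn j
    have : 0 < n j * τ j := by rw [h]; positivity
    exact Nat.pos_of_mul_pos_right this
  have hinj : Function.Injective n := by
    intro i j hij
    by_contra hne
    apply hτBad
    apply mem_union_left
    refine mem_biUnion.2 ⟨(i, j), ?_, ?_⟩
    · simpa using hne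
    · refine mem_filter.2 ⟨hτP, ?_⟩
      have h1 := hn i
      have h2 := hn j
      rw [← h2, hij] at h1
      exact Nat.eq_of_mul_eq_mul_left (hnpos j) h1
  refine ⟨univ.image n, ?_, ?_, ?_⟩
  · rw [Finset.disjoint_left]
    intro m hm hmF
    obtain ⟨j, -, rfl⟩ := mem_image.1 hm
    apply hτBad
    apply mem_union_right
    refine mem_biUnion.2 ⟨(j, n j), mem_product.2 ⟨mem_univ _, hmF⟩, ?_⟩
    refine mem_filter.2 ⟨hτP, ?_⟩
    show (∑ l, τ l) * K = n j * g * τ j
    rw [hc]
    calc g * c * K = g * (c * K) := by ring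
      _ = g * (n j * τ j) := by rw [hn j]
      _ = n j * g * τ j := by ring
  · rw [card_image_of_injective _ hinj]
    simp
  · rw [sum_image (fun i _ j _ h => hinj h)]
    have hKq : (K : ℚ) ≠ 0 := by positivity
    have hcq : (c : ℚ) ≠ 0 := by positivity
    have hterm : ∀ j, (1 : ℚ) / (n j) = (τ j : ℚ) / (c * K) := by
      intro j
      have hnq : (n j : ℚ) ≠ 0 := by
        have := hnpos j
        positivity
      have h := hn j
      have h' : (n j : ℚ) * τ j = c * K := by exact_mod_cast h
      field_simp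
      linarith
    calc ∑ j, (1 : ℚ) / (n j) = ∑ j, (τ j : ℚ) / (c * K) := sum_congr rfl fun j _ => hterm j
      _ = (∑ j, (τ j : ℚ)) / (c * K) := by rw [Finset.sum_div]
      _ = (g : ℚ) / K := by
        have : (∑ j, (τ j : ℚ)) = g * c := by exact_mod_cast hc
        rw [this]
        field_simp

end Vale.Agent.P012
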