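import Mathlib
import Vale.Agent.P012.Tuples

/-!
Fourier analysis on `ZMod g`: counting zero-sum tuples, and the bilinear bound.
-/

namespace Vale.Agent.P012

open Finset
open scoped ComplexConjugate

/-- Number of ordered pairs of elements of `D` congruent modulo `M`. -/
noncomputable def coll (D : Finset ℕ) (M : ℕ) : ℕ :=
  ((D ×ˢ D).filter fun p => p.1 ≡ p.2 [MOD M]).card

/-- The exponential sum of `X` at frequency `a`. -/
noncomputable def expSum (X : Finset ℕ) (g : ℕ) [NeZero g] (a : ZMod g) : ℂ :=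
  ∑ x ∈ X, ZMod.stdAddChar (a * (x : ZMod g))

lemma sum_char_mul (g : ℕ) [NeZero g] (s : ZMod g) :
    ∑ a : ZMod g, (ZMod.stdAddChar (a * s) : ℂ) = if s = 0 then (g : ℂ) else 0 := by
  have h := AddChar.sum_mulShift (R := ZMod g) (R' := ℂ) s (ZMod.isPrimitive_stdAddChar g)
  rw [h, ZMod.card]
  split_ifs <;> simp

lemma char_sum {ι : Type*} (g : ℕ) [NeZero g] (s : Finset ι) (f : ι → ZMod g) :
    ∏ j ∈ s, (ZMod.stdAddChar (f j) : ℂ) = ZMod.stdAddChar (∑ j ∈ s, f j) := by
  classical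
  induction s using Finset.induction_on with
  | empty => simp
  | insert a s ha ih =>
    rw [prod_insert ha, sum_insert ha, ih, AddChar.map_add_eq_mul]

theorem fourier_identity (X : Finset ℕ) (k g : ℕ) [NeZero g] :
    ∑ a : ZMod g, (expSum X g a) ^ k = (g : ℂ) * ((zeroTuples X k g).card : ℂ) := by
  classical
  have h1 : ∀ a : ZMod g, (expSum X g a) ^ k =
      ∑ τ ∈ Fintype.piFinset (fun _ : Fin k => X),
        (ZMod.stdAddChar (a * ((∑ j, τ j : ℕ) : ZMod g)) : ℂ) := by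
    intro a
    have : (expSum X g a) ^ k = ∏ _j : Fin k, expSum X g a := by simp
    rw [this]
    unfold expSum
    rw [Finset.prod_univ_sum]
    refine sum_congr rfl fun τ _ => ?_
    rw [char_sum]
    congr 1
    push_cast
    rw [Finset.mul_sum]
  simp_rw [h1]
  rw [Finset.sum_comm]
  simp_rw [sum_char_mul]
  unfold zeroTuples
  rw [Finset.card_filter]
  push_cast
  rw [Finset.mul_sum]
  refine sum_congr rfl fun τ _ => ?_
  by_cases h : g ∣ ∑ j, τ j
  · have h0 : ((∑ j, τ j : ℕ) : ZMod g) = 0 := (ZMod.natCast_eq_zero_iff _ _).2 h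
    have h0' : (∑ j, (τ j : ZMod g)) = 0 := by
      rw [← h0]; push_cast; rfl
    simp [h, h0']
  · have h0 : ((∑ j, τ j : ℕ) : ZMod g) ≠ 0 := fun h' => h ((ZMod.natCast_eq_zero_iff _ _).1 h')
    have h0' : (∑ j, (τ j : ZMod g)) ≠ 0 := by
      intro h'; apply h0; push_cast; exact h'
    simp [h, h0']

theorem count_lower (X : Finset ℕ) (k g : ℕ) [NeZero g] :
    ((X.card : ℝ) ^ k) ≤ (g : ℝ) * ((zeroTuples X k g).card : ℝ)
      + ∑ a ∈ (univ : Finset (ZMod g)).erase 0, ‖expSum X g a‖ ^ k := by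
  classical
  have h := fourier_identity X k g
  have h0 : expSum X g 0 = (X.card : ℂ) := by
    unfold expSum
    simp
  rw [← Finset.add_sum_erase _ _ (mem_univ (0 : ZMod g)), h0] at h
  have h2 : ((X.card : ℂ)) ^ k = (g : ℂ) * ((zeroTuples X k g).card : ℂ)
      - ∑ a ∈ (univ : Finset (ZMod g)).erase 0, (expSum X g a) ^ k := by
    rw [← h]; ring
  have h3 : ‖((X.card : ℂ)) ^ k‖ = (X.card : ℝ) ^ k := by
    simp
  rw [← h3, h2]
  refine (norm_sub_le _ _).trans ?_
  apply add_le_add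
  · simp
  · refine (norm_sum_le _ _).trans ?_
    refine sum_le_sum fun a _ => ?_
    rw [norm_pow]

section bilinear

variable {M : ℕ} [NeZero M]

/-- Number of elements of `U` in the residue class `t`. -/
noncomputable def fib (U : Finset ℕ) (t : ZMod M) : ℕ :=
  (U.filter fun u : ℕ => (u : ZMod M) = t).card

lemma sum_fib {E : Type*} [AddCommMonoid E] [Module ℕ E] (U : Finset ℕ) (φ : ZMod M → E) :
    ∑ u ∈ U, φ (u : ZMod M) = ∑ t : ZMod M, (fib U t) • φ t := by
  classical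
  have := Finset.sum_fiberwise_of_maps_to (s := U) (t := (univ : Finset (ZMod M)))
    (g := fun u : ℕ => (u : ZMod M)) (fun _ _ => mem_univ _) (fun u => φ (u : ZMod M))
  rw [← this]
  refine sum_congr rfl fun t _ => ?_
  rw [Finset.sum_congr rfl (g := fun _ => φ t)]
  · simp [fib]
  · intro u hu
    rw [(mem_filter.1 hu).2]

lemma coll_eq_sum_fib (U : Finset ℕ) : coll U M = ∑ t : ZMod M, (fib U t) ^ 2 := by
  classical
  have h1 : coll U M = ∑ u ∈ U, fib U (u : ZMod M) := by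
    unfold coll fib
    rw [Finset.card_filter, Finset.sum_product]
    refine sum_congr rfl fun u _ => ?_
    rw [Finset.card_filter]
    refine sum_congr rfl fun v _ => ?_
    by_cases h : u ≡ v [MOD M]
    · have h' : (v : ZMod M) = u := ((ZMod.natCast_eq_natCast_iff u v M).2 h).symm
      simp [h, h']
    · have h' : ¬ (v : ZMod M) = u := fun h'' => h ((ZMod.natCast_eq_natCast_iff u v M).1 h''.symm)
      simp [h, h']
  rw [h1, sum_fib (M := M) U (fun t => fib U t)]
  refine sum_congr rfl fun t _ => ?_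
  simp [sq]

lemma norm_sq_eq_sum (V : Finset ℕ) (a t : ZMod M) :
    ((‖∑ v ∈ V, (ZMod.stdAddChar (a * t * (v : ZMod M)) : ℂ)‖ ^ 2 : ℝ) : ℂ) =
      ∑ p ∈ V ×ˢ V, (ZMod.stdAddChar (t * (a * ((p.1 : ZMod M) - (p.2 : ZMod M)))) : ℂ) := by
  rw [Complex.ofReal_pow, ← Complex.mul_conj', map_sum, Finset.sum_mul_sum, ← Finset.sum_product']
  refine sum_congr rfl fun p _ => ?_
  rw [← AddChar.map_neg_eq_conj, ← AddChar.map_add_eq_mul]
  congr 1
  ring

lemma sum_norm_sq (V : Finset ℕ) (a : ZMod M) (ha : IsUnit a) :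
    ∑ t : ZMod M, ‖∑ v ∈ V, (ZMod.stdAddChar (a * t * (v : ZMod M)) : ℂ)‖ ^ 2
      = (M : ℝ) * coll V M := by
  classical
  have h : ((∑ t : ZMod M, ‖∑ v ∈ V, (ZMod.stdAddChar (a * t * (v : ZMod M)) : ℂ)‖ ^ 2 : ℝ) : ℂ)
      = ((M : ℝ) * coll V M : ℝ) := by
    push_cast
    simp_rw [← Complex.ofReal_pow]
    simp_rw [norm_sq_eq_sum V a]
    rw [Finset.sum_comm]
    simp_rw [sum_char_mul]
    unfold coll
    rw [Finset.card_filter]
    push_cast
    rw [Finset.mul_sum]
    refine sum_congr rfl fun p _ => ?_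
    by_cases hp : p.1 ≡ p.2 [MOD M]
    · have : (p.1 : ZMod M) = p.2 := (ZMod.natCast_eq_natCast_iff _ _ _).2 hp
      simp [hp, this]
    · have h1 : (p.1 : ZMod M) ≠ p.2 := fun h => hp ((ZMod.natCast_eq_natCast_iff _ _ _).1 h)
      have h2 : a * ((p.1 : ZMod M) - (p.2 : ZMod M)) ≠ 0 := by
        intro h'
        rcases ha with ⟨u, rfl⟩
        have := (Units.mul_right_eq_zero u).1 h'
        exact h1 (sub_eq_zero.1 this)
      simp [hp, h2]
  exact_mod_cast h

theorem bilinear_bound (U V : Finset ℕ) (a : ZMod M) (ha : IsUnit a) :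
    ‖∑ u ∈ U, ∑ v ∈ V, (ZMod.stdAddChar (a * (u : ZMod M) * (v : ZMod M)) : ℂ)‖ ^ 2
      ≤ (M : ℝ) * coll U M * coll V M := by
  classical
  set f : ZMod M → ℂ := fun t => ∑ v ∈ V, (ZMod.stdAddChar (a * t * (v : ZMod M)) : ℂ) with hf
  have h1 : ∑ u ∈ U, ∑ v ∈ V, (ZMod.stdAddChar (a * (u : ZMod M) * (v : ZMod M)) : ℂ)
      = ∑ t : ZMod M, (fib U t) • f t := sum_fib U f
  rw [h1]
  have h2 : ‖∑ t : ZMod M, (fib U t) • f t‖ ≤ ∑ t : ZMod M, (fib U t : ℝ) * ‖f t‖ := by
    refine (norm_sum_le _ _).trans (le_of_eq ?_)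
    refine sum_congr rfl fun t _ => ?_
    rw [nsmul_eq_mul, norm_mul]
    simp
  have h3 : (∑ t : ZMod M, (fib U t : ℝ) * ‖f t‖) ^ 2 ≤
      (∑ t : ZMod M, (fib U t : ℝ) ^ 2) * ∑ t : ZMod M, ‖f t‖ ^ 2 :=
    Finset.sum_mul_sq_le_sq_mul_sq _ _ _
  have h4 : (∑ t : ZMod M, (fib U t : ℝ) ^ 2) = coll U M := by
    rw [coll_eq_sum_fib]
    push_cast
    rfl
  have h5 : ∑ t : ZMod M, ‖f t‖ ^ 2 = (M : ℝ) * coll V M := sum_norm_sq V a ha
  have hnn : 0 ≤ ‖∑ t : ZMod M, (fib U t) • f t‖ := norm_nonneg _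
  calc ‖∑ t : ZMod M, (fib U t) • f t‖ ^ 2
      ≤ (∑ t : ZMod M, (fib U t : ℝ) * ‖f t‖) ^ 2 := by
        exact pow_le_pow_left₀ hnn h2 2
    _ ≤ (∑ t : ZMod M, (fib U t : ℝ) ^ 2) * ∑ t : ZMod M, ‖f t‖ ^ 2 := h3
    _ = (M : ℝ) * coll U M * coll V M := by
        rw [h4, h5]; ring

end bilinear

/-- `stdAddChar` of a natural number, as an exponential. -/
lemma stdAddChar_natCast (N : ℕ) [NeZero N] (n : ℕ) :
    (ZMod.stdAddChar (n : ZMod N) : ℂ) =
      Complex.exp (2 * Real.pi * Complex.I * (n : ℂ) / (N : ℂ)) := by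
  have := ZMod.stdAddChar_coe (N := N) (n : ℤ)
  simpa using this

/-- The denominator of the reduced fraction `a / g`. -/
noncomputable def redDen (g : ℕ) [NeZero g] (a : ZMod g) : ℕ := g / Nat.gcd a.val g

lemma redDen_dvd (g : ℕ) [NeZero g] (a : ZMod g) : redDen g a ∣ g :=
  Nat.div_dvd_of_dvd (Nat.gcd_dvd_right _ _)

lemma redDen_pos (g : ℕ) [NeZero g] (a : ZMod g) : 0 < redDen g a :=
  Nat.pos_of_dvd_of_pos (redDen_dvd g a) (Nat.pos_of_ne_zero (NeZero.ne g))

lemma redDen_ne_one (g : ℕ) [NeZero g] (a : ZMod g) (ha : a ≠ 0) : redDen g a ≠ 1 := by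
  have hg : 0 < g := Nat.pos_of_ne_zero (NeZero.ne g)
  have hval : a.val ≠ 0 := by
    simpa [ZMod.val_eq_zero] using ha
  have hlt : a.val < g := ZMod.val_lt a
  intro h
  have hd : Nat.gcd a.val g ∣ g := Nat.gcd_dvd_right _ _
  have : g = Nat.gcd a.val g := by
    have h' := Nat.div_mul_cancel hd
    unfold redDen at h
    rw [h, one_mul] at h'
    exact h'.symm
  have h2 : g ∣ a.val := (dvd_of_eq this).trans (Nat.gcd_dvd_left _ _)
  have := Nat.le_of_dvd (Nat.pos_of_ne_zero hval) h2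
  omega

/-- Reduction of the bilinear bound to the reduced denominator. -/
theorem bilinear_bound_general (U V : Finset ℕ) (g : ℕ) [NeZero g] (a : ZMod g) :
    ‖∑ u ∈ U, ∑ v ∈ V, (ZMod.stdAddChar (a * ((u * v : ℕ) : ZMod g)) : ℂ)‖ ^ 2
      ≤ (redDen g a : ℝ) * coll U (redDen g a) * coll V (redDen g a) := by
  classical
  have hg : 0 < g := Nat.pos_of_ne_zero (NeZero.ne g)
  set δ := Nat.gcd a.val g with hδ
  have hδpos : 0 < δ := Nat.gcd_pos_of_pos_right _ hg
  set M := redDen g a with hM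
  have hMpos : 0 < M := redDen_pos g a
  haveI : NeZero M := ⟨hMpos.ne'⟩
  have hgM : g = δ * M := by
    rw [hM]; unfold redDen
    exact (Nat.mul_div_cancel' (Nat.gcd_dvd_right _ _)).symm
  obtain ⟨a₀, ha₀⟩ : δ ∣ a.val := Nat.gcd_dvd_left _ _
  have hcop : Nat.Coprime a₀ M := by
    have := Nat.coprime_div_gcd_div_gcd (m := a.val) (n := g) hδpos
    rw [← hδ] at this
    have h1 : a.val / δ = a₀ := by rw [ha₀]; exact Nat.mul_div_cancel_left _ hδpos
    have h2 : g / δ = M := by rw [hM]; rfl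
    rwa [h1, h2] at this
  have hunit : IsUnit (a₀ : ZMod M) := (ZMod.isUnit_iff_coprime a₀ M).2 hcop
  have hterm : ∀ n : ℕ, (ZMod.stdAddChar (a * (n : ZMod g)) : ℂ)
      = ZMod.stdAddChar ((a₀ : ZMod M) * (n : ZMod M)) := by
    intro n
    have h1 : a * (n : ZMod g) = ((a.val * n : ℕ) : ZMod g) := by
      push_cast
      rw [ZMod.natCast_zmod_val]
    have h2 : (a₀ : ZMod M) * (n : ZMod M) = ((a₀ * n : ℕ) : ZMod M) := by
      push_cast; rfl
    rw [h1, h2, stdAddChar_natCast, stdAddChar_natCast]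
    congr 1
    have hδC : (δ : ℂ) ≠ 0 := by exact_mod_cast hδpos.ne'
    have hMC : (M : ℂ) ≠ 0 := by exact_mod_cast hMpos.ne'
    rw [ha₀, hgM]
    push_cast
    field_simp
  have hsum : ∑ u ∈ U, ∑ v ∈ V, (ZMod.stdAddChar (a * ((u * v : ℕ) : ZMod g)) : ℂ)
      = ∑ u ∈ U, ∑ v ∈ V, (ZMod.stdAddChar ((a₀ : ZMod M) * (u : ZMod M) * (v : ZMod M)) : ℂ) := by
    refine sum_congr rfl fun u _ => sum_congr rfl fun v _ => ?_
    rw [hterm]
    congr 1
    push_cast
    ring
  rw [hsum]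
  exact bilinear_bound U V (a₀ : ZMod M) hunit

/-- Sizes of the fibres of `redDen`. -/
lemma card_redDen_fiber_le (g : ℕ) [NeZero g] (M : ℕ) :
    ((univ : Finset (ZMod g)).filter fun a => redDen g a = M).card ≤ M := by
  classical
  have hg : 0 < g := Nat.pos_of_ne_zero (NeZero.ne g)
  suffices h : ((univ : Finset (ZMod g)).filter fun a => redDen g a = M).card ≤ (range M).card by
    simpa using h
  refine card_le_card_of_injOn (fun a => a.val / (g / M)) ?_ ?_
  · intro a ha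
    have ha' : redDen g a = M := (mem_filter.1 (mem_coe.1 ha)).2
    have hd : Nat.gcd a.val g ∣ g := Nat.gcd_dvd_right _ _
    have hδpos : 0 < Nat.gcd a.val g := Nat.gcd_pos_of_pos_right _ hg
    have hM : g = Nat.gcd a.val g * M := by
      rw [← ha']; unfold redDen
      exact (Nat.mul_div_cancel' hd).symm
    have hMpos : 0 < M := by
      rw [← ha']; exact redDen_pos g a
    have h1 : g / M = Nat.gcd a.val g := by
      conv_lhs => rw [hM]
      exact Nat.mul_div_cancel _ hMpos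
    simp only [mem_coe, mem_range]
    rw [h1]
    apply Nat.div_lt_of_lt_mul
    rw [← hM]
    exact ZMod.val_lt a
  · intro a ha b hb hab
    have ha' : redDen g a = M := (mem_filter.1 (mem_coe.1 ha)).2
    have hb' : redDen g b = M := (mem_filter.1 (mem_coe.1 hb)).2
    have hMpos : 0 < M := by
      rw [← ha']; exact redDen_pos g a
    have hd : ∀ c : ZMod g, redDen g c = M → g / M ∣ c.val := by
      intro c hc
      have hd : Nat.gcd c.val g ∣ g := Nat.gcd_dvd_right _ _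
      have hM : g = Nat.gcd c.val g * M := by
        rw [← hc]; unfold redDen
        exact (Nat.mul_div_cancel' hd).symm
      have h1 : g / M = Nat.gcd c.val g := by
        conv_lhs => rw [hM]
        exact Nat.mul_div_cancel _ hMpos
      rw [h1]
      exact Nat.gcd_dvd_left _ _
    have hval : a.val = b.val := by
      have h1 := Nat.div_mul_cancel (hd a ha')
      have h2 := Nat.div_mul_cancel (hd b hb')
      simp only at hab
      rw [← h1, ← h2, hab]
    exact ZMod.val_injective g hval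

/-- The main consequence: if the reduced denominators are all large and the collision counts are
under control then there are many zero-sum tuples. -/
theorem many_zero_tuples (U V : Finset ℕ) (g k' : ℕ) [NeZero g] (A : ℝ) (z : ℕ) (hA : 0 ≤ A)
    (hz : 0 < z)
    (hinj : Set.InjOn (fun p : ℕ × ℕ => p.1 * p.2) (U ×ˢ V : Finset (ℕ × ℕ)))
    (hbig : ∀ M : ℕ, M ∣ g → M ≠ 1 → z < M ∧
      ((M : ℝ) * coll U M * coll V M) ^ k' ≤ A / (M : ℝ) ^ 3) :
    (((U ×ˢ V).image fun p : ℕ × ℕ => p.1 * p.2).card : ℝ) ^ (2 * k') ≤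
      (g : ℝ) * ((zeroTuples ((U ×ˢ V).image fun p : ℕ × ℕ => p.1 * p.2) (2 * k') g).card : ℝ)
        + A / z := by
  classical
  set X := (U ×ˢ V).image fun p : ℕ × ℕ => p.1 * p.2 with hX
  have hg : 0 < g := Nat.pos_of_ne_zero (NeZero.ne g)
  refine (count_lower X (2 * k') g).trans ?_
  apply add_le_add_right
  -- bound each term
  have hterm : ∀ a ∈ (univ : Finset (ZMod g)).erase 0,
      ‖expSum X g a‖ ^ (2 * k') ≤ A / (redDen g a : ℝ) ^ 3 := by
    intro a ha
    have ha0 : a ≠ 0 := (mem_erase.1 ha).1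
    have hS : expSum X g a =
        ∑ u ∈ U, ∑ v ∈ V, (ZMod.stdAddChar (a * ((u * v : ℕ) : ZMod g)) : ℂ) := by
      unfold expSum
      rw [hX, Finset.sum_image hinj, Finset.sum_product]
    have hb := bilinear_bound_general U V g a
    rw [← hS] at hb
    have := (hbig (redDen g a) (redDen_dvd g a) (redDen_ne_one g a ha0)).2
    calc ‖expSum X g a‖ ^ (2 * k') = (‖expSum X g a‖ ^ 2) ^ k' := by rw [pow_mul]
      _ ≤ _ := pow_le_pow_left₀ (by positivity) hb k'
      _ ≤ _ := this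
  refine (sum_le_sum hterm).trans ?_
  -- group by denominator
  set D := ((g.divisors).erase 1) with hD
  have hmaps : ∀ a ∈ (univ : Finset (ZMod g)).erase 0, redDen g a ∈ D := by
    intro a ha
    have ha0 : a ≠ 0 := (mem_erase.1 ha).1
    exact mem_erase.2 ⟨redDen_ne_one g a ha0,
      Nat.mem_divisors.2 ⟨redDen_dvd g a, hg.ne'⟩⟩
  rw [← Finset.sum_fiberwise_of_maps_to hmaps]
  have hfib : ∀ M ∈ D, ∑ a ∈ ((univ : Finset (ZMod g)).erase 0).filter (fun a => redDen g a = M),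
      A / (redDen g a : ℝ) ^ 3 ≤ A * (((M : ℝ) ^ 2)⁻¹) := by
    intro M hM
    have hMpos : 0 < M := Nat.pos_of_mem_divisors (mem_of_mem_erase hM)
    have hMR : (0 : ℝ) < M := by exact_mod_cast hMpos
    have h1 : ∀ a ∈ ((univ : Finset (ZMod g)).erase 0).filter (fun a => redDen g a = M),
        A / (redDen g a : ℝ) ^ 3 = A / (M : ℝ) ^ 3 := by
      intro a ha
      rw [(mem_filter.1 ha).2]
    rw [sum_congr rfl h1, sum_const, nsmul_eq_mul]
    have h2 : ((((univ : Finset (ZMod g)).erase 0).filter (fun a => redDen g a = M)).card : ℝ)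
        ≤ M := by
      have : (((univ : Finset (ZMod g)).erase 0).filter (fun a => redDen g a = M)).card ≤ M :=
        (card_le_card (filter_subset_filter _ (erase_subset _ _))).trans
          (card_redDen_fiber_le g M)
      exact_mod_cast this
    calc _ ≤ (M : ℝ) * (A / (M : ℝ) ^ 3) := by
          apply mul_le_mul_of_nonneg_right h2
          positivity
      _ = A * (((M : ℝ) ^ 2)⁻¹) := by
          field_simp
  refine (sum_le_sum hfib).trans ?_
  rw [← Finset.mul_sum, div_eq_mul_inv]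
  apply mul_le_mul_of_nonneg_left _ hA
  -- the sum of inverse squares
  have hz' : ∀ M ∈ D, z < M := fun M hM =>
    (hbig M (Nat.dvd_of_mem_divisors (mem_of_mem_erase hM)) (ne_of_mem_erase hM)).1
  by_cases hDe : D = ∅
  · rw [hDe]
    simp only [sum_empty]
    positivity
  obtain ⟨M₀, hM₀⟩ := Finset.nonempty_iff_ne_empty.2 hDe
  have hzg : z ≤ g := (hz' M₀ hM₀).le.trans (Nat.divisor_le (mem_of_mem_erase hM₀))
  have hsub : D ⊆ Ioc z g := by
    intro M hM
    exact mem_Ioc.2 ⟨hz' M hM, Nat.divisor_le (mem_of_mem_erase hM)⟩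
  have hle : ∑ M ∈ D, ((M : ℝ) ^ 2)⁻¹ ≤ ∑ M ∈ Ioc z g, ((M : ℝ) ^ 2)⁻¹ :=
    sum_le_sum_of_subset_of_nonneg hsub (fun _ _ _ => by positivity)
  refine hle.trans ?_
  have h3 := sum_Ioc_inv_sq_le_sub (α := ℝ) hz.ne' hzg
  have h4 : (0 : ℝ) ≤ (g : ℝ)⁻¹ := by positivity
  linarith

end Vale.Agent.P012
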