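import Mathlib

/-!
Elementary estimates for primes: a Mertens type upper bound for sums of reciprocals of primes and
a Chebyshev lower bound for the number of primes.
-/

namespace Vale.Agent.P012

open Finset Real

/-- The weight `1 / (m log m)`. -/
noncomputable def ff (m : ℕ) : ℝ := 1 / ((m : ℝ) * log m)

lemma ff_nonneg (m : ℕ) : 0 ≤ ff m := by
  unfold ff
  rcases Nat.eq_zero_or_pos m with h | h
  · subst h; simp
  · have : (1 : ℝ) ≤ m := by exact_mod_cast h
    have := log_nonneg this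
    positivity

lemma log_pos_of_two_le {m : ℕ} (hm : 2 ≤ m) : 0 < log (m : ℝ) :=
  log_pos (by exact_mod_cast (by omega : 1 < m))

lemma ff_anti {m : ℕ} (hm : 2 ≤ m) : ff (m + 1) ≤ ff m := by
  unfold ff
  have h1 : 0 < log (m : ℝ) := log_pos_of_two_le hm
  have h0 : (0 : ℝ) < m := by exact_mod_cast (by omega : 0 < m)
  have h2 : log (m : ℝ) ≤ log ((m + 1 : ℕ) : ℝ) :=
    log_le_log h0 (by push_cast; linarith)
  apply one_div_le_one_div_of_le (by positivity)
  push_cast at *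
  apply mul_le_mul (by linarith) h2 h1.le (by linarith)

lemma theta_succ (n : ℕ) :
    Chebyshev.theta ((n + 1 : ℕ) : ℝ) = Chebyshev.theta (n : ℝ)
      + (if (n + 1).Prime then log ((n + 1 : ℕ) : ℝ) else 0) := by
  unfold Chebyshev.theta
  simp only [Nat.floor_natCast]
  rw [sum_filter, sum_filter, sum_Ioc_succ_top (Nat.zero_le n)]

lemma S_invariant (L : ℕ) (hL : 2 ≤ L) (n : ℕ) (hn : L ≤ n) :
    (∑ m ∈ Ioc L n, (if m.Prime then (1 : ℝ) / m else 0)) - Chebyshev.theta (n : ℝ) * ff n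
      ≤ log 4 * ((L : ℝ) * ff L - (n : ℝ) * ff n + ∑ m ∈ Ioc L n, ff m) := by
  induction n, hn using Nat.le_induction with
  | base =>
    simp only [Ioc_self, sum_empty, sub_self, zero_add, mul_zero, zero_sub]
    have := Chebyshev.theta_nonneg (L : ℝ)
    have := ff_nonneg L
    have : 0 ≤ Chebyshev.theta (L : ℝ) * ff L := by positivity
    linarith
  | succ n hn ih =>
    rw [sum_Ioc_succ_top hn, sum_Ioc_succ_top hn, theta_succ]
    have hn2 : 2 ≤ n := hL.trans hn
    have hanti := ff_anti hn2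
    have hthetale : Chebyshev.theta (n : ℝ) ≤ log 4 * n :=
      Chebyshev.theta_le_log4_mul_x (by positivity)
    have hd : 0 ≤ ff n - ff (n + 1) := by linarith
    have hmul : Chebyshev.theta (n : ℝ) * (ff n - ff (n + 1)) ≤ log 4 * n * (ff n - ff (n + 1)) :=
      mul_le_mul_of_nonneg_right hthetale hd
    set a : ℝ := if (n + 1).Prime then log ((n + 1 : ℕ) : ℝ) else 0 with ha
    have hterm : (if (n + 1).Prime then (1 : ℝ) / ((n + 1 : ℕ) : ℝ) else 0) = a * ff (n + 1) := by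
      rw [ha]
      split_ifs with hp
      · unfold ff
        have h1 : 0 < log ((n + 1 : ℕ) : ℝ) := log_pos_of_two_le (by omega)
        have h0 : (0 : ℝ) < ((n + 1 : ℕ) : ℝ) := by positivity
        field_simp
      · simp
    rw [hterm]
    push_cast at *
    nlinarith

theorem sum_inv_primes_le_aux (L n : ℕ) (hL : 2 ≤ L) (hn : L ≤ n) :
    ∑ m ∈ Ioc L n, (if m.Prime then (1 : ℝ) / m else 0)
      ≤ log 4 * (1 / log (L : ℝ) + ∑ m ∈ Ioc L n, ff m) := by
  have h := S_invariant L hL n hn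
  have hthetale : Chebyshev.theta (n : ℝ) ≤ log 4 * n :=
    Chebyshev.theta_le_log4_mul_x (by positivity)
  have hff := ff_nonneg n
  have hmul : Chebyshev.theta (n : ℝ) * ff n ≤ log 4 * n * ff n :=
    mul_le_mul_of_nonneg_right hthetale hff
  have hL0 : (L : ℝ) ≠ 0 := by positivity
  have hlog : log (L : ℝ) ≠ 0 := (log_pos_of_two_le hL).ne'
  have hLff : (L : ℝ) * ff L = 1 / log (L : ℝ) := by
    unfold ff; field_simp
  rw [hLff] at h
  nlinarith

lemma ff_le_loglog (m : ℕ) (hm : 2 ≤ m) :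
    ff (m + 1) ≤ log (log ((m + 1 : ℕ) : ℝ)) - log (log (m : ℝ)) := by
  unfold ff
  have h1 : 0 < log (m : ℝ) := log_pos_of_two_le hm
  have h2 : 0 < log ((m + 1 : ℕ) : ℝ) := log_pos_of_two_le (by omega)
  have h0 : (0 : ℝ) < m := by exact_mod_cast (by omega : 0 < m)
  have h0' : (0 : ℝ) < ((m + 1 : ℕ) : ℝ) := by positivity
  have h3 : log (log (m : ℝ) / log ((m + 1 : ℕ) : ℝ)) ≤
      log (m : ℝ) / log ((m + 1 : ℕ) : ℝ) - 1 :=
    log_le_sub_one_of_pos (by positivity)
  rw [log_div h1.ne' h2.ne'] at h3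
  have h4 : log ((m : ℝ) / ((m + 1 : ℕ) : ℝ)) ≤ (m : ℝ) / ((m + 1 : ℕ) : ℝ) - 1 :=
    log_le_sub_one_of_pos (by positivity)
  rw [log_div h0.ne' h0'.ne'] at h4
  have h5 : (m : ℝ) / ((m + 1 : ℕ) : ℝ) - 1 = - (1 / ((m + 1 : ℕ) : ℝ)) := by
    push_cast
    field_simp
    ring
  rw [h5] at h4
  have h6 : log (m : ℝ) / log ((m + 1 : ℕ) : ℝ) - 1
      = (log (m : ℝ) - log ((m + 1 : ℕ) : ℝ)) / log ((m + 1 : ℕ) : ℝ) := by
    field_simp
  rw [h6] at h3
  have h7 : (log (m : ℝ) - log ((m + 1 : ℕ) : ℝ)) / log ((m + 1 : ℕ) : ℝ)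
      ≤ - (1 / ((m + 1 : ℕ) : ℝ)) / log ((m + 1 : ℕ) : ℝ) :=
    div_le_div_of_nonneg_right h4 h2.le
  have h8 : - (1 / ((m + 1 : ℕ) : ℝ)) / log ((m + 1 : ℕ) : ℝ)
      = - (1 / (((m + 1 : ℕ) : ℝ) * log ((m + 1 : ℕ) : ℝ))) := by
    field_simp
  rw [h8] at h7
  linarith

lemma sum_ff_le (L n : ℕ) (hL : 2 ≤ L) (hn : L ≤ n) :
    ∑ m ∈ Ioc L n, ff m ≤ log (log (n : ℝ)) - log (log (L : ℝ)) := by
  induction n, hn using Nat.le_induction with
  | base => simp
  | succ n hn ih =>
    rw [sum_Ioc_succ_top hn]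
    have := ff_le_loglog n (hL.trans hn)
    linarith

/-- The Mertens type bound with an explicit constant `log 4`. -/
theorem sum_inv_primes_le (L n : ℕ) (hL : 2 ≤ L) (hn : L ≤ n) :
    ∑ p ∈ (Ioc L n).filter Nat.Prime, (1 : ℝ) / p
      ≤ log 4 * (1 / log (L : ℝ) + log (log (n : ℝ)) - log (log (L : ℝ))) := by
  rw [sum_filter]
  have h1 := sum_inv_primes_le_aux L n hL hn
  have h2 := sum_ff_le L n hL hn
  have hlog4 : 0 < log (4 : ℝ) := log_pos (by norm_num)
  calc _ ≤ _ := h1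
    _ ≤ _ := by
      apply mul_le_mul_of_nonneg_left _ hlog4.le
      linarith

/-- Numerical form of the bound: if `n ≤ L ^ (2.02)` and `log L ≥ 2000`, then the sum of the
reciprocals of the primes in `(L, n]` is at most `0.976`. -/
theorem sum_inv_primes_numeric (L n : ℕ) (hLlog : 2000 ≤ log (L : ℝ)) (hn : L ≤ n)
    (hnL : (n : ℝ) ≤ (L : ℝ) ^ (2.02 : ℝ)) :
    ∑ p ∈ (Ioc L n).filter Nat.Prime, (1 : ℝ) / p ≤ 0.976 := by
  have hL2 : 2 ≤ L := by
    by_contra h
    have hL : L ≤ 1 := by omega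
    have : log (L : ℝ) ≤ 0 := by
      apply log_nonpos (by positivity)
      exact_mod_cast hL
    linarith
  have hLpos : (0 : ℝ) < L := by positivity
  have hnpos : (0 : ℝ) < n := by
    have : 0 < n := by omega
    exact_mod_cast this
  have h := sum_inv_primes_le L n hL2 hn
  have hlogn : log (n : ℝ) ≤ 2.02 * log (L : ℝ) := by
    have := log_le_log hnpos hnL
    rwa [log_rpow hLpos] at this
  have hlogL : 0 < log (L : ℝ) := by linarith
  have hlogn0 : 0 < log (n : ℝ) := by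
    have : log (L : ℝ) ≤ log (n : ℝ) :=
      log_le_log hLpos (by exact_mod_cast hn)
    linarith
  have hll : log (log (n : ℝ)) ≤ log 2.02 + log (log (L : ℝ)) := by
    have := log_le_log hlogn0 hlogn
    rwa [log_mul (by norm_num) hlogL.ne'] at this
  have hlog2 : log 2.02 ≤ log 2 + 0.01 := by
    have h1 : (2.02 : ℝ) = 2 * 1.01 := by norm_num
    rw [h1, log_mul (by norm_num) (by norm_num)]
    have := log_le_sub_one_of_pos (show (0 : ℝ) < 1.01 by norm_num)
    linarith
  have hl2 := Real.log_two_lt_d9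
  have hl2' := Real.log_two_gt_d9
  have hlog4 : log (4 : ℝ) = 2 * log 2 := by
    have : (4 : ℝ) = 2 ^ 2 := by norm_num
    rw [this, log_pow]; norm_num
  have hinv : 1 / log (L : ℝ) ≤ 1 / 2000 := one_div_le_one_div_of_le (by norm_num) hLlog
  calc _ ≤ _ := h
    _ ≤ log 4 * (1 / 2000 + log 2.02) := by
      apply mul_le_mul_of_nonneg_left _ (by rw [hlog4]; positivity)
      linarith
    _ ≤ 0.976 := by
      rw [hlog4]
      have : log 2.02 ≤ 0.7032 := by linarith
      have h3 : 2 * log 2 ≤ 1.3863 := by linarith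
      have h4 : (1 : ℝ) / 2000 + log 2.02 ≤ 0.7037 := by linarith
      have h5 : 0 ≤ (1 : ℝ) / 2000 + log 2.02 := by
        have : 0 ≤ log (2.02 : ℝ) := log_nonneg (by norm_num)
        positivity
      nlinarith

/-- Chebyshev's lower bound in a convenient form. -/
theorem primeCounting_ge (n : ℕ) (hn : 100 ≤ n) :
    (n : ℝ) / (2 * log (n : ℝ)) ≤ (Nat.primeCounting n : ℝ) := by
  have h := Chebyshev.pi_ge n
  have hn' : (100 : ℝ) ≤ n := by exact_mod_cast hn
  have hlog : 0 < log (n : ℝ) := log_pos (by linarith)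
  refine le_trans ?_ h
  apply (div_le_div_iff₀ (by positivity) hlog).2
  have hl2' := Real.log_two_gt_d9
  -- `log (n + 1) ≤ n * (log 2 - 1/2)`
  have h1 : log ((n : ℝ) + 1) ≤ ((n : ℝ) + 1) / 100 + log 100 - 1 := by
    have := log_le_sub_one_of_pos (show (0 : ℝ) < ((n : ℝ) + 1) / 100 by positivity)
    rw [log_div (by positivity) (by norm_num)] at this
    linarith
  have h2 : log (100 : ℝ) ≤ 5 := by
    have : log (100 : ℝ) ≤ 100 / 64 + log 64 - 1 := by
      have := log_le_sub_one_of_pos (show (0 : ℝ) < 100 / 64 by norm_num)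
      rw [log_div (by norm_num) (by norm_num)] at this
      linarith
    have h32 : log (64 : ℝ) = 6 * log 2 := by
      have : (64 : ℝ) = 2 ^ 6 := by norm_num
      rw [this, log_pow]; norm_num
    have := Real.log_two_lt_d9
    linarith
  have h3 : log ((n : ℝ) + 1) ≤ (n : ℝ) * (log 2 - 1 / 2) := by
    nlinarith
  have h4 : (n : ℝ) / 2 ≤ (n : ℝ) * log 2 - log ((n : ℝ) + 1) := by
    linarith
  calc (n : ℝ) * log (n : ℝ) = ((n : ℝ) / 2) * (2 * log (n : ℝ)) := by ring
    _ ≤ ((n : ℝ) * log 2 - log ((n : ℝ) + 1)) * (2 * log (n : ℝ)) :=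
      mul_le_mul_of_nonneg_right h4 (by positivity)

/-- Two disjoint sets of primes up to `L`, each of the prescribed size. -/
theorem exists_two_prime_sets (L n : ℕ) (hn : 2 * n ≤ Nat.primeCounting L) :
    ∃ R₁ R₂ : Finset ℕ, R₁ ⊆ Nat.primesLE L ∧ R₂ ⊆ Nat.primesLE L ∧ Disjoint R₁ R₂ ∧
      R₁.card = n ∧ R₂.card = n := by
  classical
  have hcard : (Nat.primesLE L).card = Nat.primeCounting L := by
    simp [Nat.primeCounting, Nat.primesLE, Nat.primesBelow, Nat.primeCounting', Nat.count_eq_card_filter_range]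
  obtain ⟨R₁, h1, h2⟩ := Finset.exists_subset_card_eq (s := Nat.primesLE L) (n := n) (by omega)
  have hc2 : n ≤ (Nat.primesLE L \ R₁).card := by
    rw [card_sdiff_of_subset h1]
    omega
  obtain ⟨R₂, h3, h4⟩ := Finset.exists_subset_card_eq hc2
  refine ⟨R₁, R₂, h1, h3.trans sdiff_subset, ?_, h2, h4⟩
  exact (Finset.disjoint_of_subset_left h3 sdiff_disjoint).symm

end Vale.Agent.P012
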