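import Mathlib
import Vale.Agent.P012.Fourier
import Vale.Agent.P012.Primes

/-!
A covering argument: every short interval contains a number all of whose large divisors are
typical for the sets `D₁`, `D₂`.
-/

namespace Vale.Agent.P012

open Finset Real

/-- Number of ordered pairs of distinct elements of `D` congruent modulo `M`. -/
noncomputable def excoll (D : Finset ℕ) (M : ℕ) : ℕ :=
  ((D ×ˢ D).filter fun p => p.1 ≠ p.2 ∧ p.1 ≡ p.2 [MOD M]).card

lemma coll_le (D : Finset ℕ) (M : ℕ) : coll D M ≤ D.card + excoll D M := by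
  classical
  unfold coll excoll
  have hsub : ((D ×ˢ D).filter fun p => p.1 ≡ p.2 [MOD M]) ⊆
      (D.image fun u => (u, u)) ∪ ((D ×ˢ D).filter fun p => p.1 ≠ p.2 ∧ p.1 ≡ p.2 [MOD M]) := by
    intro p hp
    obtain ⟨hp1, hp2⟩ := mem_filter.1 hp
    by_cases h : p.1 = p.2
    · apply mem_union_left
      refine mem_image.2 ⟨p.1, (mem_product.1 hp1).1, ?_⟩
      ext <;> simp [h]
    · exact mem_union_right _ (mem_filter.2 ⟨hp1, h, hp2⟩)
  calc _ ≤ _ := card_le_card hsub
    _ ≤ _ := card_union_le _ _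
    _ ≤ _ := by
      apply add_le_add_left
      exact card_image_le

/-- Squarefree numbers in `[2, Y]` all of whose prime factors exceed `z`. -/
noncomputable def roughSet (z Y : ℕ) : Finset ℕ :=
  (Icc 2 Y).filter fun M => Squarefree M ∧ ∀ p ∈ M.primeFactors, z < p

lemma mem_roughSet {z Y M : ℕ} :
    M ∈ roughSet z Y ↔ 2 ≤ M ∧ M ≤ Y ∧ Squarefree M ∧ ∀ p ∈ M.primeFactors, z < p := by
  simp [roughSet, and_assoc]

/-- A Rankin type bound for the divisors of `n` in the rough set. -/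
theorem rankin (z Y W n : ℕ) (s : ℝ) (hz : 1 ≤ z) (hs : 0 ≤ s) (hn : n ≠ 0) (hnW : n < 2 ^ W) :
    ∑ M ∈ (roughSet z Y).filter (· ∣ n), ((M : ℝ) ^ (-s)) ≤ (1 + (z : ℝ) ^ (-s)) ^ W - 1 := by
  classical
  set t : ℝ := (z : ℝ) ^ (-s) with ht
  have hzR : (1 : ℝ) ≤ z := by exact_mod_cast hz
  have ht0 : 0 ≤ t := by positivity
  set P := n.primeFactors.filter (z < ·) with hP
  -- the size of `P`
  have hPcard : P.card ≤ W := by
    have h1 : ∏ p ∈ P, p ∣ n := by
      have h2 : ∏ p ∈ P, p ∣ ∏ p ∈ n.primeFactors, p :=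
        Finset.prod_dvd_prod_of_subset _ _ _ (filter_subset _ _)
      exact h2.trans (Nat.prod_primeFactors_dvd n)
    have h3 : 2 ^ P.card ≤ ∏ p ∈ P, p := by
      have := Finset.prod_le_prod' (s := P) (f := fun _ => 2) (g := fun p => p) (fun p hp =>
        (Nat.prime_of_mem_primeFactors (mem_filter.1 hp).1).two_le)
      simpa using this
    have h4 : ∏ p ∈ P, p ≤ n := Nat.le_of_dvd (Nat.pos_of_ne_zero hn) h1
    have h5 : 2 ^ P.card < 2 ^ W := by omega
    exact ((Nat.pow_lt_pow_iff_right (by norm_num)).1 h5).le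
  -- comparison with a sum over subsets of `P`
  have hmaps : ∀ M ∈ (roughSet z Y).filter (· ∣ n), M.primeFactors ∈ P.powerset.erase ∅ := by
    intro M hM
    obtain ⟨hM1, hM2⟩ := mem_filter.1 hM
    obtain ⟨h2, -, hsf, hrough⟩ := mem_roughSet.1 hM1
    refine mem_erase.2 ⟨?_, mem_powerset.2 ?_⟩
    · intro h
      rw [Nat.primeFactors_eq_empty] at h
      omega
    · intro p hp
      refine mem_filter.2 ⟨?_, hrough p hp⟩
      exact Nat.mem_primeFactors.2 ⟨Nat.prime_of_mem_primeFactors hp,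
        (Nat.dvd_of_mem_primeFactors hp).trans hM2, hn⟩
  have hinj : Set.InjOn (fun M : ℕ => M.primeFactors) ((roughSet z Y).filter (· ∣ n) : Finset ℕ) := by
    intro M hM M' hM' h
    have h1 := (mem_roughSet.1 (mem_filter.1 (mem_coe.1 hM)).1).2.2.1
    have h2 := (mem_roughSet.1 (mem_filter.1 (mem_coe.1 hM')).1).2.2.1
    rw [← Nat.prod_primeFactors_of_squarefree h1, ← Nat.prod_primeFactors_of_squarefree h2]
    simp only at h
    rw [h]
  have hterm : ∀ M ∈ (roughSet z Y).filter (· ∣ n), (M : ℝ) ^ (-s) ≤ t ^ (M.primeFactors.card) := by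
    intro M hM
    obtain ⟨hM1, hM2⟩ := mem_filter.1 hM
    obtain ⟨h2, -, hsf, hrough⟩ := mem_roughSet.1 hM1
    have hge : (z : ℝ) ^ M.primeFactors.card ≤ M := by
      have h3 : z ^ M.primeFactors.card ≤ ∏ p ∈ M.primeFactors, p := by
        have := Finset.prod_le_prod' (s := M.primeFactors) (f := fun _ => z) (g := fun p => p)
          (fun p hp => (hrough p hp).le)
        simpa using this
      rw [Nat.prod_primeFactors_of_squarefree hsf] at h3
      exact_mod_cast h3
    rw [ht, ← Real.rpow_natCast, ← Real.rpow_mul (by positivity)]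
    have h4 : ((z : ℝ) ^ ((-s) * (M.primeFactors.card : ℝ))) = ((z : ℝ) ^ (M.primeFactors.card)) ^ (-s) := by
      rw [← Real.rpow_natCast, ← Real.rpow_mul (by positivity)]
      ring_nf
    rw [h4]
    exact Real.rpow_le_rpow_of_nonpos (by positivity) hge (by linarith)
  calc ∑ M ∈ (roughSet z Y).filter (· ∣ n), ((M : ℝ) ^ (-s))
      ≤ ∑ M ∈ (roughSet z Y).filter (· ∣ n), t ^ (M.primeFactors.card) := sum_le_sum hterm
    _ = ∑ A ∈ ((roughSet z Y).filter (· ∣ n)).image (fun M => M.primeFactors), t ^ A.card := by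
        rw [sum_image hinj]
    _ ≤ ∑ A ∈ P.powerset.erase ∅, t ^ A.card := by
        apply sum_le_sum_of_subset_of_nonneg
        · intro A hA
          obtain ⟨M, hM, rfl⟩ := mem_image.1 hA
          exact hmaps M hM
        · intro _ _ _; positivity
    _ = (1 + t) ^ P.card - 1 := by
        have h1 := Finset.sum_pow_mul_eq_add_pow t 1 P
        simp only [one_pow, mul_one] at h1
        have h2 := Finset.add_sum_erase P.powerset (fun A : Finset ℕ => t ^ A.card)
          (empty_mem_powerset P)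
        simp only [card_empty, pow_zero] at h2
        rw [add_comm 1 t, ← h1, ← h2]
        ring
    _ ≤ (1 + t) ^ W - 1 := by
        have : (1 + t) ^ P.card ≤ (1 + t) ^ W :=
          pow_le_pow_right₀ (by linarith) hPcard
        linarith

/-- Distance between natural numbers, and congruences. -/
lemma modEq_iff_dvd_dist (u v M : ℕ) : u ≡ v [MOD M] ↔ M ∣ (max u v - min u v) := by
  rcases le_total u v with h | h
  · rw [max_eq_right h, min_eq_left h]
    exact Nat.modEq_iff_dvd' h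
  · rw [max_eq_left h, min_eq_right h, Nat.ModEq.comm]
    exact Nat.modEq_iff_dvd' h

/-- The average of the excess collisions over the rough set is small. -/
theorem sum_excoll_le (D : Finset ℕ) (z Y W : ℕ) (s : ℝ) (hz : 1 ≤ z) (hs : 0 ≤ s)
    (hD : ∀ d ∈ D, d < 2 ^ W) :
    ∑ M ∈ roughSet z Y, (M : ℝ) ^ (-s) * (excoll D M : ℝ)
      ≤ (D.card : ℝ) ^ 2 * ((1 + (z : ℝ) ^ (-s)) ^ W - 1) := by
  classical
  have h1 : ∀ M ∈ roughSet z Y, (M : ℝ) ^ (-s) * (excoll D M : ℝ)
      = ∑ p ∈ D ×ˢ D, if (p.1 ≠ p.2 ∧ p.1 ≡ p.2 [MOD M]) then (M : ℝ) ^ (-s) else 0 := by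
    intro M _
    unfold excoll
    rw [Finset.card_filter]
    push_cast
    rw [Finset.mul_sum]
    refine sum_congr rfl fun p _ => ?_
    split_ifs <;> simp
  rw [sum_congr rfl h1, sum_comm]
  have h2 : ∀ p ∈ D ×ˢ D, ∑ M ∈ roughSet z Y,
      (if (p.1 ≠ p.2 ∧ p.1 ≡ p.2 [MOD M]) then (M : ℝ) ^ (-s) else 0)
      ≤ (1 + (z : ℝ) ^ (-s)) ^ W - 1 := by
    intro p hp
    obtain ⟨hp1, hp2⟩ := mem_product.1 hp
    by_cases hne : p.1 = p.2
    · simp only [hne, ne_eq, not_true_eq_false, false_and, if_false, sum_const_zero]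
      have hzR : (0 : ℝ) < z := by exact_mod_cast hz
      have : (1 : ℝ) ≤ (1 + (z : ℝ) ^ (-s)) ^ W := by
        apply one_le_pow₀
        have : 0 ≤ (z : ℝ) ^ (-s) := by positivity
        linarith
      linarith
    · set n := max p.1 p.2 - min p.1 p.2 with hn
      have hn0 : n ≠ 0 := by
        rw [hn]
        rcases le_total p.1 p.2 with h | h
        · rw [max_eq_right h, min_eq_left h]; omega
        · rw [max_eq_left h, min_eq_right h]; omega
      have hnW : n < 2 ^ W := by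
        have h3 := hD _ hp1
        have h4 := hD _ hp2
        rw [hn]
        rcases le_total p.1 p.2 with h | h
        · rw [max_eq_right h, min_eq_left h]; omega
        · rw [max_eq_left h, min_eq_right h]; omega
      have h5 := rankin z Y W n s hz hs hn0 hnW
      refine le_trans (le_of_eq ?_) h5
      rw [sum_filter]
      refine sum_congr rfl fun M _ => ?_
      have : (p.1 ≠ p.2 ∧ p.1 ≡ p.2 [MOD M]) ↔ M ∣ n := by
        rw [← modEq_iff_dvd_dist]
        simp [hne]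
      simp only [this]
  calc _ ≤ ∑ p ∈ D ×ˢ D, ((1 + (z : ℝ) ^ (-s)) ^ W - 1) := sum_le_sum h2
    _ = _ := by
      rw [sum_const, card_product, nsmul_eq_mul]
      push_cast
      ring

/-- The constants `θ` and `σ`. -/
noncomputable def thetaC : ℝ := 1001 / 2000
noncomputable def sigmaC : ℝ := 997 / 2000

/-- The set of atypical moduli. -/
noncomputable def badSet (D : Finset ℕ) (z Y : ℕ) : Finset ℕ :=
  (roughSet z Y).filter fun M =>
    (D.card : ℝ) ^ 2 * (M : ℝ) ^ (-thetaC) < (excoll D M : ℝ)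

theorem sum_badSet_le (D : Finset ℕ) (z Y W : ℕ) (H : ℝ) (hz : 1 ≤ z)
    (hD : ∀ d ∈ D, d < 2 ^ W) (hH : (Y : ℝ) ^ (0.999 : ℝ) ≤ H) :
    ∑ M ∈ badSet D z Y, (H / (M : ℝ) + 1) ≤ 2 * H * ((1 + (z : ℝ) ^ (-sigmaC)) ^ W - 1) := by
  classical
  rcases D.eq_empty_or_nonempty with hDe | hDne
  · -- no excess collisions
    have hb : badSet D z Y = ∅ := by
      unfold badSet
      apply filter_eq_empty_iff.2
      intro M _
      subst hDe
      simp [excoll]
    rw [hb]
    simp only [sum_empty]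
    have hH0 : 0 ≤ H := le_trans (by positivity) hH
    have hzR : (0 : ℝ) < z := by exact_mod_cast hz
    have : (1 : ℝ) ≤ (1 + (z : ℝ) ^ (-sigmaC)) ^ W := by
      apply one_le_pow₀
      have : 0 ≤ (z : ℝ) ^ (-sigmaC) := by positivity
      linarith
    have : 0 ≤ (1 + (z : ℝ) ^ (-sigmaC)) ^ W - 1 := by linarith
    positivity
  have hDcard : (0 : ℝ) < (D.card : ℝ) ^ 2 := by
    have : 0 < D.card := card_pos.2 hDne
    positivity
  have hH0 : 0 ≤ H := le_trans (by positivity) hH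
  have hterm : ∀ M ∈ badSet D z Y, H / (M : ℝ) + 1
      ≤ 2 * H / (D.card : ℝ) ^ 2 * ((M : ℝ) ^ (-sigmaC) * (excoll D M : ℝ)) := by
    intro M hM
    obtain ⟨hM1, hM2⟩ := mem_filter.1 hM
    obtain ⟨h2, hY, -, -⟩ := mem_roughSet.1 hM1
    have hMpos : (0 : ℝ) < M := by
      have : 0 < M := by omega
      exact_mod_cast this
    have hM1R : (1 : ℝ) ≤ M := by
      have : 1 ≤ M := by omega
      exact_mod_cast this
    have hYR : (M : ℝ) ≤ Y := by exact_mod_cast hY
    -- first inequality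
    have h3 : (H / (M : ℝ) + 1) * (M : ℝ) ^ thetaC ≤ 2 * H * (M : ℝ) ^ (-sigmaC) := by
      have e1 : H / (M : ℝ) * (M : ℝ) ^ thetaC ≤ H * (M : ℝ) ^ (-sigmaC) := by
        have : H / (M : ℝ) * (M : ℝ) ^ thetaC = H * (M : ℝ) ^ (thetaC - 1) := by
          rw [Real.rpow_sub hMpos, Real.rpow_one]
          ring
        rw [this]
        apply mul_le_mul_of_nonneg_left _ hH0
        apply Real.rpow_le_rpow_of_exponent_le hM1R
        norm_num [thetaC, sigmaC]
      have e2 : (M : ℝ) ^ thetaC ≤ H * (M : ℝ) ^ (-sigmaC) := by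
        have e3 : (M : ℝ) ^ thetaC = (M : ℝ) ^ (0.999 : ℝ) * (M : ℝ) ^ (-sigmaC) := by
          rw [← Real.rpow_add hMpos]
          congr 1
          norm_num [thetaC, sigmaC]
        rw [e3]
        apply mul_le_mul_of_nonneg_right _ (by positivity)
        refine le_trans ?_ hH
        exact Real.rpow_le_rpow hMpos.le hYR (by norm_num)
      nlinarith
    -- second inequality
    have h4 : 1 ≤ (M : ℝ) ^ thetaC * ((excoll D M : ℝ) / (D.card : ℝ) ^ 2) := by
      have h5 : (M : ℝ) ^ (-thetaC) = ((M : ℝ) ^ thetaC)⁻¹ := Real.rpow_neg hMpos.le _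
      rw [h5] at hM2
      have hpos : 0 < (M : ℝ) ^ thetaC := by positivity
      have h6 : (D.card : ℝ) ^ 2 < (excoll D M : ℝ) * (M : ℝ) ^ thetaC := by
        have := mul_lt_mul_of_pos_right hM2 hpos
        rwa [mul_assoc, inv_mul_cancel₀ hpos.ne', mul_one] at this
      rw [mul_div_assoc', le_div_iff₀ hDcard]
      linarith
    have hnn : 0 ≤ H / (M : ℝ) + 1 := by positivity
    calc H / (M : ℝ) + 1 ≤ (H / (M : ℝ) + 1) * ((M : ℝ) ^ thetaC * ((excoll D M : ℝ) / (D.card : ℝ) ^ 2)) :=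
          le_mul_of_one_le_right hnn h4
      _ = ((H / (M : ℝ) + 1) * (M : ℝ) ^ thetaC) * ((excoll D M : ℝ) / (D.card : ℝ) ^ 2) := by ring
      _ ≤ (2 * H * (M : ℝ) ^ (-sigmaC)) * ((excoll D M : ℝ) / (D.card : ℝ) ^ 2) :=
          mul_le_mul_of_nonneg_right h3 (by positivity)
      _ = _ := by ring
  have hsig : (0 : ℝ) ≤ sigmaC := by norm_num [sigmaC]
  calc _ ≤ ∑ M ∈ badSet D z Y, 2 * H / (D.card : ℝ) ^ 2 * ((M : ℝ) ^ (-sigmaC) * (excoll D M : ℝ)) :=
        sum_le_sum hterm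
    _ ≤ ∑ M ∈ roughSet z Y, 2 * H / (D.card : ℝ) ^ 2 * ((M : ℝ) ^ (-sigmaC) * (excoll D M : ℝ)) := by
        apply sum_le_sum_of_subset_of_nonneg (filter_subset _ _)
        intro _ _ _
        positivity
    _ = 2 * H / (D.card : ℝ) ^ 2 * ∑ M ∈ roughSet z Y, (M : ℝ) ^ (-sigmaC) * (excoll D M : ℝ) := by
        rw [Finset.mul_sum]
    _ ≤ 2 * H / (D.card : ℝ) ^ 2 * ((D.card : ℝ) ^ 2 * ((1 + (z : ℝ) ^ (-sigmaC)) ^ W - 1)) := by
        apply mul_le_mul_of_nonneg_left (sum_excoll_le D z Y W sigmaC hz hsig hD)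
        positivity
    _ = _ := by
        field_simp

/-- Multiples of `δ` in an interval. -/
lemma card_multiples_le (a H δ : ℕ) (hδ : 0 < δ) :
    ((Ioc a (a + H)).filter (δ ∣ ·)).card ≤ H / δ + 1 := by
  classical
  have h1 : ((Ioc 0 (a + H)).filter (δ ∣ ·)).card =
      ((Ioc 0 a).filter (δ ∣ ·)).card + ((Ioc a (a + H)).filter (δ ∣ ·)).card := by
    rw [← card_union_of_disjoint]
    · congr 1
      rw [← filter_union, Ioc_union_Ioc_eq_Ioc (Nat.zero_le a) (Nat.le_add_right a H)]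
    · apply disjoint_filter_filter
      rw [disjoint_left]
      intro x hx hx'
      have := (mem_Ioc.1 hx).2
      have := (mem_Ioc.1 hx').1
      omega
  rw [Nat.Ioc_filter_dvd_card_eq_div, Nat.Ioc_filter_dvd_card_eq_div] at h1
  have h2 := Nat.add_div (a := a) (b := H) hδ
  have h3 : (if δ ≤ a % δ + H % δ then 1 else 0) ≤ 1 := by split_ifs <;> omega
  omega

/-- The covering lemma. -/
theorem covering (a H : ℕ) (Ds : Finset ℕ) (hpos : ∀ δ ∈ Ds, 0 < δ)
    (hsum : ∑ δ ∈ Ds, ((H : ℝ) / (δ : ℝ) + 1) < H) :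
    ∃ g ∈ Ioc a (a + H), ∀ δ ∈ Ds, ¬ δ ∣ g := by
  classical
  by_contra hno
  push Not at hno
  have hsub : Ioc a (a + H) ⊆ Ds.biUnion fun δ => (Ioc a (a + H)).filter (δ ∣ ·) := by
    intro g hg
    obtain ⟨δ, hδ, hd⟩ := hno g hg
    exact mem_biUnion.2 ⟨δ, hδ, mem_filter.2 ⟨hg, hd⟩⟩
  have h1 : (H : ℝ) ≤ ∑ δ ∈ Ds, ((Ioc a (a + H)).filter (δ ∣ ·)).card := by
    have h2 := (card_le_card hsub).trans (card_biUnion_le (s := Ds)
      (t := fun δ => (Ioc a (a + H)).filter (δ ∣ ·)))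
    have h3 : (Ioc a (a + H)).card = H := by simp
    rw [h3] at h2
    exact_mod_cast h2
  have h4 : ∀ δ ∈ Ds, ((((Ioc a (a + H)).filter (δ ∣ ·)).card : ℕ) : ℝ) ≤ (H : ℝ) / (δ : ℝ) + 1 := by
    intro δ hδ
    have h5 := card_multiples_le a H δ (hpos δ hδ)
    have h6 : ((H / δ : ℕ) : ℝ) ≤ (H : ℝ) / (δ : ℝ) := Nat.cast_div_le
    have h7 : (((Ioc a (a + H)).filter (δ ∣ ·)).card : ℝ) ≤ ((H / δ : ℕ) : ℝ) + 1 := by
      exact_mod_cast h5
    linarith
  have h8 := sum_le_sum h4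
  push_cast at h1
  linarith

end Vale.Agent.P012
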