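import Mathlib
import Vale.Agent.P012.Covering

/-!
Existence of good moduli in short intervals.
-/

namespace Vale.Agent.P012

open Finset Real

lemma sum_union_le' {A B : Finset ℕ} (f : ℕ → ℝ) (hf : ∀ x, 0 ≤ f x) :
    ∑ x ∈ A ∪ B, f x ≤ ∑ x ∈ A, f x + ∑ x ∈ B, f x := by
  classical
  have := Finset.sum_union_inter (s₁ := A) (s₂ := B) (f := f)
  have h2 : 0 ≤ ∑ x ∈ A ∩ B, f x := sum_nonneg fun x _ => hf x
  linarith

theorem exists_good (L z Y H W : ℕ) (D₁ D₂ : Finset ℕ)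
    (hL : 2 ≤ L) (hLz : L ≤ z) (hz1 : 1000 ≤ z)
    (hS : ∑ p ∈ (Ioc L z).filter Nat.Prime, (1 : ℝ) / p ≤ 0.976)
    (hρ : (1 + (z : ℝ) ^ (-sigmaC)) ^ W - 1 ≤ 1 / 1000)
    (hD₁ : ∀ d ∈ D₁, d < 2 ^ W) (hD₂ : ∀ d ∈ D₂, d < 2 ^ W)
    (hHY : H ≤ Y) (hH : (Y : ℝ) ^ (0.999 : ℝ) ≤ H)
    (hH2 : 100 * (L + z + Nat.sqrt Y) ≤ H) :
    ∃ g ∈ Ioc (Y - H) Y,
      (∀ p, p.Prime → 3 ≤ p → p ≤ L → ¬ p ^ 8 ∣ g) ∧
      (∀ p, p.Prime → L < p → p ≤ z → ¬ p ∣ g) ∧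
      (∀ p, p.Prime → z < p → ¬ p ^ 2 ∣ g) ∧
      (∀ M ∈ roughSet z Y, M ∣ g → M ∉ badSet D₁ z Y ∧ M ∉ badSet D₂ z Y) := by
  classical
  set D1 := ((Icc 3 L).filter Nat.Prime).image (· ^ 8) with hD1
  set D2 := (Ioc L z).filter Nat.Prime with hD2
  set D3 := ((Ioc z (Nat.sqrt Y)).filter Nat.Prime).image (· ^ 2) with hD3
  set B1 := badSet D₁ z Y with hB1
  set B2 := badSet D₂ z Y with hB2
  set Ds := D1 ∪ D2 ∪ D3 ∪ B1 ∪ B2 with hDs
  set f : ℕ → ℝ := fun δ => (H : ℝ) / (δ : ℝ) + 1 with hf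
  have hfnn : ∀ x, 0 ≤ f x := fun x => by simp only [hf]; positivity
  have hHpos : 0 < H := by omega
  have hHR : (0 : ℝ) < H := by exact_mod_cast hHpos
  -- the parts
  have s1 : ∑ δ ∈ D1, f δ ≤ (H : ℝ) / 1000 + L := by
    rw [hD1, sum_image (by
      intro a _ b _ h
      exact Nat.pow_left_injective (n := 8) (by norm_num) h)]
    have h1 : ∑ p ∈ (Icc 3 L).filter Nat.Prime, f (p ^ 8) ≤ ∑ p ∈ Icc 3 L, f (p ^ 8) :=
      sum_le_sum_of_subset_of_nonneg (filter_subset _ _) (fun _ _ _ => hfnn _)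
    refine h1.trans ?_
    have hIcc : Icc 3 L = Ioc 2 L := by
      ext x; simp only [mem_Icc, mem_Ioc]; omega
    rw [hIcc]
    have h2 : ∀ p ∈ Ioc 2 L, f (p ^ 8) ≤ (H : ℝ) * (((p : ℝ) ^ 2)⁻¹ / 729) + 1 := by
      intro p hp
      have hp3 : 3 ≤ p := by have := (mem_Ioc.1 hp).1; omega
      have hpR : (3 : ℝ) ≤ p := by exact_mod_cast hp3
      simp only [hf]
      push_cast
      have : (H : ℝ) / (p : ℝ) ^ 8 ≤ (H : ℝ) * (((p : ℝ) ^ 2)⁻¹ / 729) := by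
        rw [div_eq_mul_inv]
        apply mul_le_mul_of_nonneg_left _ hHR.le
        have h6 : (729 : ℝ) ≤ (p : ℝ) ^ 6 := by
          calc (729 : ℝ) = 3 ^ 6 := by norm_num
            _ ≤ (p : ℝ) ^ 6 := pow_le_pow_left₀ (by norm_num) hpR 6
        have hp0 : (0 : ℝ) < (p : ℝ) ^ 2 := by positivity
        rw [inv_div_left] 
        rw [show ((p : ℝ) ^ 8) = (p : ℝ) ^ 6 * (p : ℝ) ^ 2 by ring]
        exact inv_anti₀ (by positivity) (by nlinarith)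
      linarith
    refine (sum_le_sum h2).trans ?_
    rw [sum_add_distrib, ← Finset.mul_sum, ← Finset.sum_div]
    have h3 := sum_Ioc_inv_sq_le_sub (α := ℝ) (k := 2) (n := L) (by norm_num) hL
    have h4 : (0 : ℝ) ≤ (L : ℝ)⁻¹ := by positivity
    have h5 : ∑ p ∈ Ioc 2 L, ((p : ℝ) ^ 2)⁻¹ ≤ 1 / 2 := by
      push_cast at h3
      norm_num at h3 ⊢
      linarith
    have h6 : (∑ p ∈ Ioc 2 L, ((p : ℝ) ^ 2)⁻¹) / 729 ≤ 1 / 1000 := by
      rw [div_le_iff₀ (by norm_num)]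
      linarith
    have h7 : (H : ℝ) * ((∑ p ∈ Ioc 2 L, ((p : ℝ) ^ 2)⁻¹) / 729) ≤ (H : ℝ) * (1 / 1000) :=
      mul_le_mul_of_nonneg_left h6 hHR.le
    have h8 : ∑ _p ∈ Ioc 2 L, (1 : ℝ) ≤ L := by
      simp
    linarith
  have s2 : ∑ δ ∈ D2, f δ ≤ 0.976 * (H : ℝ) + z := by
    simp only [hf]
    rw [sum_add_distrib]
    have h1 : ∑ δ ∈ D2, (H : ℝ) / (δ : ℝ) = (H : ℝ) * ∑ δ ∈ D2, (1 : ℝ) / (δ : ℝ) := by
      rw [Finset.mul_sum]
      refine sum_congr rfl fun δ _ => ?_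
      ring
    have h2 : ∑ _δ ∈ D2, (1 : ℝ) ≤ z := by
      have h3 : D2.card ≤ (Ioc L z).card := card_filter_le _ _
      have h4 : (Ioc L z).card ≤ z := by simp
      simp only [sum_const, nsmul_eq_mul, mul_one]
      exact_mod_cast h3.trans h4
    rw [h1]
    nlinarith
  have s3 : ∑ δ ∈ D3, f δ ≤ (H : ℝ) / 1000 + Nat.sqrt Y := by
    rw [hD3, sum_image (by
      intro a _ b _ h
      exact Nat.pow_left_injective (n := 2) (by norm_num) h)]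
    have h1 : ∑ p ∈ (Ioc z (Nat.sqrt Y)).filter Nat.Prime, f (p ^ 2) ≤
        ∑ p ∈ Ioc z (Nat.sqrt Y), f (p ^ 2) :=
      sum_le_sum_of_subset_of_nonneg (filter_subset _ _) (fun _ _ _ => hfnn _)
    refine h1.trans ?_
    by_cases hzs : z ≤ Nat.sqrt Y
    · simp only [hf]
      rw [sum_add_distrib]
      have h2 : ∑ p ∈ Ioc z (Nat.sqrt Y), (H : ℝ) / ((p ^ 2 : ℕ) : ℝ)
          = (H : ℝ) * ∑ p ∈ Ioc z (Nat.sqrt Y), ((p : ℝ) ^ 2)⁻¹ := by
        rw [Finset.mul_sum]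
        refine sum_congr rfl fun p _ => ?_
        push_cast
        rw [div_eq_mul_inv]
      have h3 := sum_Ioc_inv_sq_le_sub (α := ℝ) (k := z) (n := Nat.sqrt Y) (by omega) hzs
      have h4 : (0 : ℝ) ≤ ((Nat.sqrt Y : ℕ) : ℝ)⁻¹ := by positivity
      have h5 : ((z : ℝ))⁻¹ ≤ 1 / 1000 := by
        rw [one_div]
        apply inv_anti₀ (by norm_num)
        exact_mod_cast hz1
      have h6 : ∑ p ∈ Ioc z (Nat.sqrt Y), ((p : ℝ) ^ 2)⁻¹ ≤ 1 / 1000 := by linarith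
      have h7 : ∑ _p ∈ Ioc z (Nat.sqrt Y), (1 : ℝ) ≤ Nat.sqrt Y := by
        simp only [sum_const, nsmul_eq_mul, mul_one]
        have : (Ioc z (Nat.sqrt Y)).card ≤ Nat.sqrt Y := by simp
        exact_mod_cast this
      rw [h2]
      nlinarith
    · have : Ioc z (Nat.sqrt Y) = ∅ := Ioc_eq_empty (by omega)
      rw [this]
      simp only [sum_empty]
      positivity
  have hHre : (Y : ℝ) ^ (0.999 : ℝ) ≤ ((H : ℝ)) := hH
  have s4 : ∑ δ ∈ B1, f δ ≤ 2 * (H : ℝ) * (1 / 1000) := by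
    have := sum_badSet_le D₁ z Y W (H : ℝ) (by omega) hD₁ hHre
    refine this.trans ?_
    apply mul_le_mul_of_nonneg_left hρ (by positivity)
  have s5 : ∑ δ ∈ B2, f δ ≤ 2 * (H : ℝ) * (1 / 1000) := by
    have := sum_badSet_le D₂ z Y W (H : ℝ) (by omega) hD₂ hHre
    refine this.trans ?_
    apply mul_le_mul_of_nonneg_left hρ (by positivity)
  have hsum : ∑ δ ∈ Ds, f δ < H := by
    have e1 := sum_union_le' (A := D1 ∪ D2 ∪ D3 ∪ B1) (B := B2) f hfnn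
    have e2 := sum_union_le' (A := D1 ∪ D2 ∪ D3) (B := B1) f hfnn
    have e3 := sum_union_le' (A := D1 ∪ D2) (B := D3) f hfnn
    have e4 := sum_union_le' (A := D1) (B := D2) f hfnn
    have hH2R : 100 * ((L : ℝ) + z + Nat.sqrt Y) ≤ H := by exact_mod_cast hH2
    rw [hDs]
    linarith
  have hpos : ∀ δ ∈ Ds, 0 < δ := by
    intro δ hδ
    simp only [hDs, mem_union] at hδ
    rcases hδ with ((((h | h) | h) | h) | h)
    · obtain ⟨p, hp, rfl⟩ := mem_image.1 h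
      exact pow_pos (mem_filter.1 hp).2.pos _
    · exact (mem_filter.1 h).2.pos
    · obtain ⟨p, hp, rfl⟩ := mem_image.1 h
      exact pow_pos (mem_filter.1 hp).2.pos _
    · have := (mem_roughSet.1 (mem_filter.1 h).1).1; omega
    · have := (mem_roughSet.1 (mem_filter.1 h).1).1; omega
  obtain ⟨g, hg, hgnd⟩ := covering (Y - H) H Ds hpos hsum
  have hY : Y - H + H = Y := Nat.sub_add_cancel hHY
  rw [hY] at hg
  have hgpos : 0 < g := by
    have := (mem_Ioc.1 hg).1; omega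
  have hgY : g ≤ Y := (mem_Ioc.1 hg).2
  refine ⟨g, hg, ?_, ?_, ?_, ?_⟩
  · intro p hp h3 hL' hd
    apply hgnd (p ^ 8) _ hd
    simp only [hDs, mem_union]
    left; left; left; left
    exact mem_image.2 ⟨p, mem_filter.2 ⟨mem_Icc.2 ⟨h3, hL'⟩, hp⟩, rfl⟩
  · intro p hp h1 h2 hd
    apply hgnd p _ hd
    simp only [hDs, mem_union]
    left; left; left; right
    exact mem_filter.2 ⟨mem_Ioc.2 ⟨h1, h2⟩, hp⟩
  · intro p hp h1 hd
    apply hgnd (p ^ 2) _ hd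
    simp only [hDs, mem_union]
    left; left; right
    have h3 : p ^ 2 ≤ Y := (Nat.le_of_dvd hgpos hd).trans hgY
    have h4 : p ≤ Nat.sqrt Y := by
      rw [Nat.le_sqrt']
      exact h3
    exact mem_image.2 ⟨p, mem_filter.2 ⟨mem_Ioc.2 ⟨h1, h4⟩, hp⟩, rfl⟩
  · intro M _ hd
    constructor
    · intro hM
      apply hgnd M _ hd
      simp only [hDs, mem_union]
      left; right
      exact hM
    · intro hM
      apply hgnd M _ hd
      simp only [hDs, mem_union]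
      right
      exact hM

end Vale.Agent.P012
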