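import Mathlib
import Vale.Agent.P012.Good

/-!
From typical moduli to unit fractions.
-/

namespace Vale.Agent.P012

open Finset Real

/-- The products of the subsets of `R`. -/
noncomputable def prodSet (R : Finset ℕ) : Finset ℕ := R.powerset.image fun A => ∏ p ∈ A, p

lemma card_prodSet (R : Finset ℕ) (hR : ∀ p ∈ R, p.Prime) : (prodSet R).card = 2 ^ R.card := by
  classical
  unfold prodSet
  rw [card_image_of_injOn, card_powerset]
  intro A hA B hB h
  have hA' : ∀ p ∈ A, p.Prime := fun p hp => hR p (mem_powerset.1 (mem_coe.1 hA) hp)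
  have hB' : ∀ p ∈ B, p.Prime := fun p hp => hR p (mem_powerset.1 (mem_coe.1 hB) hp)
  simp only at h
  rw [← Nat.primeFactors_prod hA', ← Nat.primeFactors_prod hB', h]

lemma dvd_of_mem_prodSet {R : Finset ℕ} {d : ℕ} (hd : d ∈ prodSet R) : d ∣ ∏ p ∈ R, p := by
  classical
  obtain ⟨A, hA, rfl⟩ := mem_image.1 hd
  exact Finset.prod_dvd_prod_of_subset _ _ _ (mem_powerset.1 hA)

lemma pos_of_mem_prodSet {R : Finset ℕ} (hR : ∀ p ∈ R, p.Prime) {d : ℕ} (hd : d ∈ prodSet R) :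
    0 < d := by
  classical
  obtain ⟨A, hA, rfl⟩ := mem_image.1 hd
  exact Finset.prod_pos fun p hp => (hR p (mem_powerset.1 hA hp)).pos

/-- The products `u v` with `u ∈ U`, `v ∈ V`. -/
noncomputable def prodMul (U V : Finset ℕ) : Finset ℕ := (U ×ˢ V).image fun p : ℕ × ℕ => p.1 * p.2

theorem zero_tuples_lower (k' : ℕ) (hk' : (k' : ℝ) = 3000) (U V : Finset ℕ) (Δ : ℕ)
    (hU : U.card = Δ) (hV : V.card = Δ) (hΔ : 0 < Δ)
    (hinj : Set.InjOn (fun p : ℕ × ℕ => p.1 * p.2) (U ×ˢ V : Finset (ℕ × ℕ)))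
    (z gr : ℕ) (hz0 : 0 < z) (hz : 2 * (4 : ℝ) ^ k' ≤ (z : ℝ)) [NeZero gr]
    (htyp : ∀ M : ℕ, M ∣ gr → M ≠ 1 → z < M ∧ (M : ℝ) ≤ Δ ∧
       (excoll U M : ℝ) ≤ (Δ : ℝ) ^ 2 * (M : ℝ) ^ (-thetaC) ∧
       (excoll V M : ℝ) ≤ (Δ : ℝ) ^ 2 * (M : ℝ) ^ (-thetaC)) :
    ((prodMul U V).card : ℝ) ^ (2 * k') ≤
      2 * (gr : ℝ) * ((zeroTuples (prodMul U V) (2 * k') gr).card : ℝ) := by
  classical
  have hΔR : (0 : ℝ) < Δ := by exact_mod_cast hΔ
  set A : ℝ := (4 : ℝ) ^ k' * (Δ : ℝ) ^ (4 * k') with hA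
  have hA0 : 0 ≤ A := by positivity
  have hmain := many_zero_tuples U V gr k' A z hA0 hz0 hinj (by
    intro M hMd hM1
    obtain ⟨h1, h2, h3, h4⟩ := htyp M hMd hM1
    refine ⟨h1, ?_⟩
    have hMpos : 0 < M := Nat.pos_of_ne_zero (by
      rintro rfl
      omega)
    have hMR : (1 : ℝ) ≤ M := by exact_mod_cast hMpos
    have hMR0 : (0 : ℝ) < M := by linarith
    set x : ℝ := (M : ℝ) ^ (-thetaC) with hx
    have hx0 : 0 < x := by positivity
    -- `Δ ≤ Δ ^ 2 * x`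
    have hΔx : (Δ : ℝ) ≤ (Δ : ℝ) ^ 2 * x := by
      have e1 : (M : ℝ) ^ thetaC ≤ M := by
        have := Real.rpow_le_rpow_of_exponent_le hMR (show thetaC ≤ 1 by norm_num [thetaC])
        rwa [Real.rpow_one] at this
      have e2 : (M : ℝ) ^ thetaC ≤ Δ := e1.trans h2
      have e3 : x * (M : ℝ) ^ thetaC = 1 := by
        rw [hx, ← Real.rpow_add hMR0]
        simp
      have e4 : (M : ℝ) ^ thetaC > 0 := by positivity
      calc (Δ : ℝ) = (Δ : ℝ) * (x * (M : ℝ) ^ thetaC) := by rw [e3, mul_one]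
        _ ≤ (Δ : ℝ) * (x * Δ) := by
            apply mul_le_mul_of_nonneg_left _ hΔR.le
            exact mul_le_mul_of_nonneg_left e2 hx0.le
        _ = _ := by ring
    have hc1 : (coll U M : ℝ) ≤ 2 * ((Δ : ℝ) ^ 2 * x) := by
      have := coll_le U M
      have h5 : (coll U M : ℝ) ≤ (U.card : ℝ) + (excoll U M : ℝ) := by exact_mod_cast this
      rw [hU] at h5
      linarith
    have hc2 : (coll V M : ℝ) ≤ 2 * ((Δ : ℝ) ^ 2 * x) := by
      have := coll_le V M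
      have h5 : (coll V M : ℝ) ≤ (V.card : ℝ) + (excoll V M : ℝ) := by exact_mod_cast this
      rw [hV] at h5
      linarith
    have hprod : (M : ℝ) * coll U M * coll V M ≤ 4 * (Δ : ℝ) ^ 4 * (M : ℝ) ^ (-(1 / 1000 : ℝ)) := by
      have e5 : (M : ℝ) * x * x = (M : ℝ) ^ (-(1 / 1000 : ℝ)) := by
        rw [hx]
        nth_rw 1 [← Real.rpow_one (M : ℝ)]
        rw [← Real.rpow_add hMR0, ← Real.rpow_add hMR0]
        congr 1
        norm_num [thetaC]
      calc (M : ℝ) * coll U M * coll V M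
          ≤ (M : ℝ) * (2 * ((Δ : ℝ) ^ 2 * x)) * (2 * ((Δ : ℝ) ^ 2 * x)) := by
            apply mul_le_mul _ hc2 (by positivity) (by positivity)
            exact mul_le_mul_of_nonneg_left hc1 (by positivity)
        _ = 4 * (Δ : ℝ) ^ 4 * ((M : ℝ) * x * x) := by ring
        _ = _ := by rw [e5]
    have hpow : ((M : ℝ) * coll U M * coll V M) ^ k' ≤
        (4 * (Δ : ℝ) ^ 4 * (M : ℝ) ^ (-(1 / 1000 : ℝ))) ^ k' :=
      pow_le_pow_left₀ (by positivity) hprod k'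
    refine hpow.trans (le_of_eq ?_)
    have e6 : ((M : ℝ) ^ (-(1 / 1000 : ℝ))) ^ k' = ((M : ℝ) ^ 3)⁻¹ := by
      rw [← Real.rpow_natCast, ← Real.rpow_mul hMR0.le]
      have : (-(1 / 1000 : ℝ)) * (k' : ℝ) = -((3 : ℕ) : ℝ) := by
        rw [hk']; norm_num
      rw [this, Real.rpow_neg hMR0.le, Real.rpow_natCast]
    rw [mul_pow, mul_pow, e6, hA]
    rw [← pow_mul, div_eq_mul_inv])
  have hcard : ((U ×ˢ V).image fun p : ℕ × ℕ => p.1 * p.2).card = Δ ^ 2 := by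
    rw [card_image_of_injOn hinj, card_product, hU, hV, sq]
  have hX : (prodMul U V).card = Δ ^ 2 := hcard
  have hmain' : ((prodMul U V).card : ℝ) ^ (2 * k') ≤
      (gr : ℝ) * ((zeroTuples (prodMul U V) (2 * k') gr).card : ℝ) + A / z := hmain
  rw [hX] at hmain' ⊢
  push_cast at hmain' ⊢
  have hpowΔ : ((Δ : ℝ) ^ 2) ^ (2 * k') = (Δ : ℝ) ^ (4 * k') := by
    rw [← pow_mul]
    congr 1
    ring
  rw [hpowΔ] at hmain' ⊢
  have hzR : (0 : ℝ) < z := by exact_mod_cast hz0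
  have hAz : A / z ≤ (Δ : ℝ) ^ (4 * k') / 2 := by
    rw [div_le_div_iff₀ hzR (by norm_num), hA]
    have hΔ0 : 0 ≤ (Δ : ℝ) ^ (4 * k') := by positivity
    nlinarith
  linarith

theorem step_typical (k' : ℕ) (hk' : (k' : ℝ) = 3000) (U V : Finset ℕ) (Δ : ℕ)
    (hU : U.card = Δ) (hV : V.card = Δ) (hΔ : 0 < Δ)
    (hinj : Set.InjOn (fun p : ℕ × ℕ => p.1 * p.2) (U ×ˢ V : Finset (ℕ × ℕ)))
    (hUpos : ∀ u ∈ U, 0 < u) (hVpos : ∀ v ∈ V, 0 < v)
    (z gr : ℕ) (hz0 : 0 < z) (hz : 2 * (4 : ℝ) ^ k' ≤ (z : ℝ)) (hgr : 0 < gr) (hgrΔ : gr ≤ Δ)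
    (htyp : ∀ M : ℕ, M ∣ gr → M ≠ 1 → z < M ∧ (M : ℝ) ≤ Δ ∧
       (excoll U M : ℝ) ≤ (Δ : ℝ) ^ 2 * (M : ℝ) ^ (-thetaC) ∧
       (excoll V M : ℝ) ≤ (Δ : ℝ) ^ 2 * (M : ℝ) ^ (-thetaC))
    (K : ℕ) (hK : 0 < K) (hdvd : ∀ x ∈ prodMul U V, x ∣ K)
    (F : Finset ℕ) (hF : 2 * ((2 * k') ^ 2 + (2 * k') * F.card) < Δ) :
    ∃ S : Finset ℕ, Disjoint S F ∧ S.card = 2 * k' ∧ ∑ n ∈ S, (1 : ℚ) / n = (gr : ℚ) / K := by
  classical
  haveI : NeZero gr := ⟨hgr.ne'⟩
  have hlow := zero_tuples_lower k' hk' U V Δ hU hV hΔ hinj z gr hz0 hz htyp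
  have hXpos : ∀ x ∈ prodMul U V, 0 < x := by
    intro x hx
    obtain ⟨p, hp, rfl⟩ := mem_image.1 hx
    obtain ⟨h1, h2⟩ := mem_product.1 hp
    exact Nat.mul_pos (hUpos _ h1) (hVpos _ h2)
  have hcard : (prodMul U V).card = Δ ^ 2 := by
    unfold prodMul
    rw [card_image_of_injOn hinj, card_product, hU, hV, sq]
  have hk1 : 1 ≤ k' := by
    have : (1 : ℝ) ≤ k' := by rw [hk']; norm_num
    exact_mod_cast this
  apply exists_unit_fractions (prodMul U V) hXpos (2 * k') gr K (by omega) hgr hK hdvd F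
  -- the count
  by_contra hno
  push Not at hno
  set X := prodMul U V with hX
  set N := (zeroTuples X (2 * k') gr).card with hN
  set c := ((2 * k') ^ 2 + (2 * k') * F.card) with hc
  have hXR : (0 : ℝ) < (X.card : ℝ) := by
    rw [hcard]
    push_cast
    have : (0 : ℝ) < Δ := by exact_mod_cast hΔ
    positivity
  have hkk : 2 * k' = (2 * k' - 1) + 1 := by omega
  have h1 : (N : ℝ) ≤ (c : ℝ) * (X.card : ℝ) ^ (2 * k' - 1) := by
    have : (N : ℝ) ≤ ((c * X.card ^ (2 * k' - 1) : ℕ) : ℝ) := by exact_mod_cast hno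
    rwa [Nat.cast_mul, Nat.cast_pow] at this
  have h2 : (X.card : ℝ) ^ (2 * k') ≤ 2 * (gr : ℝ) * ((c : ℝ) * (X.card : ℝ) ^ (2 * k' - 1)) :=
    hlow.trans (mul_le_mul_of_nonneg_left h1 (by positivity))
  have h3 : (X.card : ℝ) ≤ 2 * (gr : ℝ) * (c : ℝ) := by
    have h4 : (X.card : ℝ) ^ (2 * k') = (X.card : ℝ) * (X.card : ℝ) ^ (2 * k' - 1) := by
      nth_rw 1 [hkk]
      rw [pow_succ]
      ring
    rw [h4] at h2
    have h5 : 0 < (X.card : ℝ) ^ (2 * k' - 1) := pow_pos hXR _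
    have h6 : (X.card : ℝ) * (X.card : ℝ) ^ (2 * k' - 1)
        ≤ (2 * (gr : ℝ) * (c : ℝ)) * (X.card : ℝ) ^ (2 * k' - 1) := by
      calc _ ≤ _ := h2
        _ = _ := by ring
    exact le_of_mul_le_mul_right h6 h5
  have h7 : (X.card : ℕ) ≤ 2 * gr * c := by exact_mod_cast h3
  rw [hcard] at h7
  have h8 : 2 * gr * c ≤ Δ * (2 * c) := by nlinarith
  have h9 : Δ * (2 * c) < Δ * Δ := Nat.mul_lt_mul_of_pos_left hF hΔ
  nlinarith

/-- The part of `g` made of primes larger than `z` (each prime taken once). -/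
noncomputable def roughPart (z g : ℕ) : ℕ := ∏ p ∈ g.primeFactors.filter (z < ·), p

lemma roughPart_primeFactors (z g : ℕ) :
    (roughPart z g).primeFactors = g.primeFactors.filter (z < ·) :=
  Nat.primeFactors_prod fun _ hp => Nat.prime_of_mem_primeFactors (mem_filter.1 hp).1

lemma roughPart_dvd (z g : ℕ) : roughPart z g ∣ g :=
  (Finset.prod_dvd_prod_of_subset _ _ _ (filter_subset _ _)).trans (Nat.prod_primeFactors_dvd g)

lemma roughPart_pos (z g : ℕ) : 0 < roughPart z g :=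
  Finset.prod_pos fun _ hp => (Nat.prime_of_mem_primeFactors (mem_filter.1 hp).1).pos

lemma roughPart_squarefree (z g : ℕ) : Squarefree (roughPart z g) := by
  refine Finset.squarefree_prod_of_pairwise_isCoprime ?_ ?_
  · intro p hp q hq hpq
    have h1 := Nat.prime_of_mem_primeFactors (mem_filter.1 hp).1
    have h2 := Nat.prime_of_mem_primeFactors (mem_filter.1 hq).1
    exact Nat.coprime_iff_isRelPrime.1 ((Nat.coprime_primes h1 h2).2 hpq)
  · intro p hp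
    exact (Nat.prime_of_mem_primeFactors (mem_filter.1 hp).1).prime.squarefree

lemma roughPart_divisor_mem_roughSet {z g Y M : ℕ} (hg : 0 < g) (hgY : g ≤ Y)
    (hM : M ∣ roughPart z g) (hM1 : M ≠ 1) : M ∈ roughSet z Y := by
  have hMpos : 0 < M := Nat.pos_of_dvd_of_pos hM (roughPart_pos z g)
  have hle : M ≤ g := Nat.le_of_dvd hg (hM.trans (roughPart_dvd z g))
  refine mem_roughSet.2 ⟨by omega, hle.trans hgY,
    (roughPart_squarefree z g).squarefree_of_dvd hM, ?_⟩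
  intro p hp
  have hp1 : p.Prime := Nat.prime_of_mem_primeFactors hp
  have hp2 : p ∣ roughPart z g := (Nat.dvd_of_mem_primeFactors hp).trans hM
  have hp3 : p ∈ (roughPart z g).primeFactors :=
    Nat.mem_primeFactors.2 ⟨hp1, hp2, (roughPart_pos z g).ne'⟩
  rw [roughPart_primeFactors] at hp3
  exact (mem_filter.1 hp3).2

/-- The smooth part of a good number divides `2 ^ v * (primorial L) ^ 7`. -/
theorem smooth_dvd (L z g : ℕ) (hg : 0 < g) (hL : 2 ≤ L) (hLz : L ≤ z)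
    (h1 : ∀ p, p.Prime → 3 ≤ p → p ≤ L → ¬ p ^ 8 ∣ g)
    (h2 : ∀ p, p.Prime → L < p → p ≤ z → ¬ p ∣ g)
    (h3 : ∀ p, p.Prime → z < p → ¬ p ^ 2 ∣ g) :
    g / roughPart z g ∣ 2 ^ (g.factorization 2) * (primorial L) ^ 7 := by
  rw [Nat.dvd_iff_prime_pow_dvd_dvd]
  intro p k hp hd
  have hrd := roughPart_dvd z g
  have hgs : g / roughPart z g ∣ g := Nat.div_dvd_of_dvd hrd
  have hdg : p ^ k ∣ g := hd.trans hgs
  rcases Nat.eq_zero_or_pos k with rfl | hk
  · simp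
  have hpg : p ∣ g := (dvd_pow_self p hk.ne').trans hdg
  rcases Nat.lt_or_ge L p with hpL | hpL
  · -- large primes do not occur
    rcases Nat.lt_or_ge z p with hpz | hpz
    · exfalso
      -- `p` divides the rough part, so `p ^ 2` divides `g`
      have hpr : p ∣ roughPart z g := by
        have : p ∈ (roughPart z g).primeFactors := by
          rw [roughPart_primeFactors]
          exact mem_filter.2 ⟨Nat.mem_primeFactors.2 ⟨hp, hpg, hg.ne'⟩, hpz⟩
        exact Nat.dvd_of_mem_primeFactors this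
      have hps : p ∣ g / roughPart z g := (dvd_pow_self p hk.ne').trans hd
      apply h3 p hp hpz
      have : p * p ∣ (g / roughPart z g) * roughPart z g := mul_dvd_mul hps hpr
      rw [Nat.div_mul_cancel hrd] at this
      rwa [sq]
    · exact absurd hpg (h2 p hp hpL hpz)
  · rcases eq_or_ne p 2 with rfl | hp2
    · have : k ≤ g.factorization 2 := (hp.pow_dvd_iff_le_factorization hg.ne').1 hdg
      exact (pow_dvd_pow 2 this).trans (dvd_mul_right _ _)
    · have hp3 : 3 ≤ p := by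
        have := hp.two_le
        omega
      have hk7 : k ≤ 7 := by
        by_contra hk7
        push Not at hk7
        exact h1 p hp hp3 hpL ((pow_dvd_pow p (by omega)).trans hdg)
      have hpP : p ∣ primorial L := hp.dvd_primorial_iff.2 hpL
      have : p ^ 7 ∣ (primorial L) ^ 7 := pow_dvd_pow_of_dvd hpP 7
      exact ((pow_dvd_pow p hk7).trans this).trans (dvd_mul_left _ _)

end Vale.Agent.P012
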