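import Mathlib
import Vale.Agent.P012.Step

/-!
The system of parameters, and the basic expansion step for a good number.
-/

namespace Vale.Agent.P012

open Finset Real

/-- The parameters of the construction. -/
structure Sys where
  L : ℕ
  z : ℕ
  n : ℕ
  W : ℕ
  k' : ℕ
  R₁ : Finset ℕ
  R₂ : Finset ℕ
  hk' : (k' : ℝ) = 3000
  hR₁ : R₁ ⊆ Nat.primesLE L
  hR₂ : R₂ ⊆ Nat.primesLE L
  hdisj : Disjoint R₁ R₂
  hc₁ : R₁.card = n
  hc₂ : R₂.card = n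
  hL : 2 ≤ L
  hLz : L ≤ z
  hz1 : 1000 ≤ z
  hz : 2 * (4 : ℝ) ^ k' ≤ (z : ℝ)
  hS : ∑ p ∈ (Ioc L z).filter Nat.Prime, (1 : ℝ) / p ≤ 0.976
  hρ : (1 + (z : ℝ) ^ (-sigmaC)) ^ W - 1 ≤ 1 / 1000
  hW : primorial L < 2 ^ W

namespace Sys

variable (S : Sys)

/-- The first set of divisors. -/
noncomputable def D₁ : Finset ℕ := prodSet S.R₁
/-- The second set of divisors. -/
noncomputable def D₂ : Finset ℕ := prodSet S.R₂

lemma primes₁ : ∀ p ∈ S.R₁, p.Prime := fun _ hp => Nat.prime_of_mem_primesLE (S.hR₁ hp)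
lemma primes₂ : ∀ p ∈ S.R₂, p.Prime := fun _ hp => Nat.prime_of_mem_primesLE (S.hR₂ hp)

lemma card_D₁ : S.D₁.card = 2 ^ S.n := by
  rw [D₁, card_prodSet _ S.primes₁, S.hc₁]
lemma card_D₂ : S.D₂.card = 2 ^ S.n := by
  rw [D₂, card_prodSet _ S.primes₂, S.hc₂]

lemma prod₁_dvd : ∏ p ∈ S.R₁, p ∣ primorial S.L := by
  rw [primorial_eq_prod_primesLE]
  exact Finset.prod_dvd_prod_of_subset _ _ _ S.hR₁
lemma prod₂_dvd : ∏ p ∈ S.R₂, p ∣ primorial S.L := by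
  rw [primorial_eq_prod_primesLE]
  exact Finset.prod_dvd_prod_of_subset _ _ _ S.hR₂

lemma D₁_lt : ∀ d ∈ S.D₁, d < 2 ^ S.W := fun _ hd =>
  lt_of_le_of_lt (Nat.le_of_dvd (primorial_pos _) ((dvd_of_mem_prodSet hd).trans S.prod₁_dvd)) S.hW
lemma D₂_lt : ∀ d ∈ S.D₂, d < 2 ^ S.W := fun _ hd =>
  lt_of_le_of_lt (Nat.le_of_dvd (primorial_pos _) ((dvd_of_mem_prodSet hd).trans S.prod₂_dvd)) S.hW

lemma mul_dvd_primorial {x : ℕ} (hx : x ∈ prodMul S.D₁ S.D₂) : x ∣ primorial S.L := by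
  classical
  obtain ⟨p, hp, rfl⟩ := mem_image.1 hx
  obtain ⟨h1, h2⟩ := mem_product.1 hp
  have h3 : (∏ p ∈ S.R₁, p) * (∏ p ∈ S.R₂, p) = ∏ p ∈ S.R₁ ∪ S.R₂, p :=
    (Finset.prod_union S.hdisj).symm
  have h4 : ∏ p ∈ S.R₁ ∪ S.R₂, p ∣ primorial S.L := by
    rw [primorial_eq_prod_primesLE]
    exact Finset.prod_dvd_prod_of_subset _ _ _ (union_subset S.hR₁ S.hR₂)
  exact (mul_dvd_mul (dvd_of_mem_prodSet h1) (dvd_of_mem_prodSet h2)).trans (h3 ▸ h4)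

lemma coprime_prods : Nat.Coprime (∏ p ∈ S.R₁, p) (∏ q ∈ S.R₂, q) := by
  refine Nat.Coprime.prod_left fun p hp => Nat.Coprime.prod_right fun q hq => ?_
  refine (Nat.coprime_primes (S.primes₁ p hp) (S.primes₂ q hq)).2 ?_
  rintro rfl
  exact (Finset.disjoint_left.1 S.hdisj hp) hq

lemma inj_mul : Set.InjOn (fun p : ℕ × ℕ => p.1 * p.2) (S.D₁ ×ˢ S.D₂ : Finset (ℕ × ℕ)) := by
  rintro ⟨u, v⟩ h ⟨u', v'⟩ h' huv
  obtain ⟨hu, hv⟩ := mem_product.1 (mem_coe.1 h)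
  obtain ⟨hu', hv'⟩ := mem_product.1 (mem_coe.1 h')
  simp only at hu hv hu' hv' huv
  have hco := S.coprime_prods
  have c1 : Nat.Coprime u v' :=
    Nat.Coprime.coprime_dvd_left (dvd_of_mem_prodSet hu)
      (Nat.Coprime.coprime_dvd_right (dvd_of_mem_prodSet hv') hco)
  have c2 : Nat.Coprime u' v :=
    Nat.Coprime.coprime_dvd_left (dvd_of_mem_prodSet hu')
      (Nat.Coprime.coprime_dvd_right (dvd_of_mem_prodSet hv) hco)
  have d1 : u ∣ u' := c1.dvd_of_dvd_mul_right (huv ▸ dvd_mul_right u v)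
  have d2 : u' ∣ u := c2.dvd_of_dvd_mul_right (huv.symm ▸ dvd_mul_right u' v')
  have e : u = u' := Nat.dvd_antisymm d1 d2
  subst e
  have hupos : 0 < u := pos_of_mem_prodSet S.primes₁ hu
  have : v = v' := Nat.eq_of_mul_eq_mul_left hupos huv
  rw [this]

/-- A good number gives a short expansion. -/
theorem good_step (g Y : ℕ) (hg : 0 < g) (hgY : g ≤ Y) (hYΔ : Y ≤ 2 ^ S.n)
    (h1 : ∀ p, p.Prime → 3 ≤ p → p ≤ S.L → ¬ p ^ 8 ∣ g)
    (h2 : ∀ p, p.Prime → S.L < p → p ≤ S.z → ¬ p ∣ g)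
    (h3 : ∀ p, p.Prime → S.z < p → ¬ p ^ 2 ∣ g)
    (h4 : ∀ M ∈ roughSet S.z Y, M ∣ g → M ∉ badSet S.D₁ S.z Y ∧ M ∉ badSet S.D₂ S.z Y)
    (e E K : ℕ) (hK : 0 < K) (hdvd : 2 ^ E * (primorial S.L) ^ 8 ∣ K) (he : 2 ^ e * g < 2 ^ E)
    (F : Finset ℕ) (hF : 2 * ((2 * S.k') ^ 2 + (2 * S.k') * F.card) < 2 ^ S.n) :
    ∃ T : Finset ℕ, Disjoint T F ∧ T.card = 2 * S.k' ∧
      ∑ t ∈ T, (1 : ℚ) / t = ((2 ^ e * g : ℕ) : ℚ) / K := by
  classical
  set P := primorial S.L with hP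
  set gr := roughPart S.z g with hgr
  have hgrd : gr ∣ g := roughPart_dvd _ _
  have hgrpos : 0 < gr := roughPart_pos _ _
  set gs := g / gr with hgs
  have hgsr : gs * gr = g := Nat.div_mul_cancel hgrd
  have hgspos : 0 < gs := Nat.pos_of_ne_zero (by
    rintro h0
    rw [h0] at hgsr
    omega)
  have hsm : gs ∣ 2 ^ (g.factorization 2) * P ^ 7 :=
    smooth_dvd S.L S.z g hg S.hL S.hLz h1 h2 h3
  -- divisibility of `K`
  set v := g.factorization 2 with hv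
  have hv2 : 2 ^ v ∣ g := Nat.ordProj_dvd g 2
  have hv3 : 2 ^ v ≤ g := Nat.le_of_dvd hg hv2
  have hev : e + v ≤ E := by
    have : 2 ^ (e + v) < 2 ^ E := by
      rw [pow_add]
      exact lt_of_le_of_lt (Nat.mul_le_mul_left _ hv3) he
    exact ((Nat.pow_lt_pow_iff_right (by norm_num)).1 this).le
  have hdiv : 2 ^ e * gs * P ∣ K := by
    have h5 : 2 ^ e * gs * P ∣ 2 ^ e * (2 ^ v * P ^ 7) * P :=
      mul_dvd_mul_right (mul_dvd_mul_left _ hsm) _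
    have h6 : 2 ^ e * (2 ^ v * P ^ 7) * P = 2 ^ (e + v) * P ^ 8 := by
      rw [pow_add]; ring
    rw [h6] at h5
    exact h5.trans ((mul_dvd_mul_right (pow_dvd_pow 2 hev) _).trans hdvd)
  set K₃ := K / (2 ^ e * gs) with hK₃
  have hd0 : 0 < 2 ^ e * gs := by positivity
  have hd1 : 2 ^ e * gs ∣ K := (dvd_mul_right _ _).trans hdiv
  have hK₃pos : 0 < K₃ := Nat.div_pos (Nat.le_of_dvd hK hd1) hd0
  have hPK₃ : P ∣ K₃ := Nat.dvd_div_of_mul_dvd hdiv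
  have hKK₃ : 2 ^ e * gs * K₃ = K := Nat.mul_div_cancel' hd1
  -- apply the typical step
  have hΔ : 0 < 2 ^ S.n := by positivity
  have hgrg : gr ≤ g := Nat.le_of_dvd hg hgrd
  have htyp : ∀ M : ℕ, M ∣ gr → M ≠ 1 → S.z < M ∧ (M : ℝ) ≤ ((2 ^ S.n : ℕ) : ℝ) ∧
       (excoll S.D₁ M : ℝ) ≤ ((2 ^ S.n : ℕ) : ℝ) ^ 2 * (M : ℝ) ^ (-thetaC) ∧
       (excoll S.D₂ M : ℝ) ≤ ((2 ^ S.n : ℕ) : ℝ) ^ 2 * (M : ℝ) ^ (-thetaC) := by
    intro M hMd hM1
    have hMR := roughPart_divisor_mem_roughSet hg hgY hMd hM1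
    obtain ⟨hM2, hMY, -, hrough⟩ := mem_roughSet.1 hMR
    have hMg : M ∣ g := hMd.trans hgrd
    obtain ⟨hb1, hb2⟩ := h4 M hMR hMg
    refine ⟨?_, ?_, ?_, ?_⟩
    · -- `M` has a prime factor above `z`
      obtain ⟨p, hp, hpM⟩ := Nat.exists_prime_and_dvd hM1
      have hpm : p ∈ M.primeFactors := Nat.mem_primeFactors.2 ⟨hp, hpM, by omega⟩
      exact lt_of_lt_of_le (hrough p hpm) (Nat.le_of_dvd (by omega) hpM)
    · exact_mod_cast hMY.trans hYΔ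
    · by_contra hc
      push Not at hc
      apply hb1
      refine mem_filter.2 ⟨hMR, ?_⟩
      rw [S.card_D₁]
      exact hc
    · by_contra hc
      push Not at hc
      apply hb2
      refine mem_filter.2 ⟨hMR, ?_⟩
      rw [S.card_D₂]
      exact hc
  obtain ⟨T, hT1, hT2, hT3⟩ := step_typical S.k' S.hk' S.D₁ S.D₂ (2 ^ S.n) S.card_D₁ S.card_D₂ hΔ
    S.inj_mul (fun _ hu => pos_of_mem_prodSet S.primes₁ hu)
    (fun _ hv => pos_of_mem_prodSet S.primes₂ hv) S.z gr (by have := S.hz1; omega) S.hz hgrpos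
    (hgrg.trans (hgY.trans hYΔ)) htyp K₃ hK₃pos
    (fun x hx => (S.mul_dvd_primorial hx).trans hPK₃) F hF
  refine ⟨T, hT1, hT2, ?_⟩
  rw [hT3]
  have hKq : (K : ℚ) = ((2 ^ e * gs : ℕ) : ℚ) * (K₃ : ℚ) := by
    rw [← hKK₃]
    push_cast
    ring
  have hg' : ((2 ^ e * g : ℕ) : ℚ) = ((2 ^ e * gs : ℕ) : ℚ) * (gr : ℚ) := by
    rw [← hgsr]
    push_cast
    ring
  rw [hKq, hg']
  have h0 : ((2 ^ e * gs : ℕ) : ℚ) ≠ 0 := by
    exact_mod_cast hd0.ne'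
  have h0' : (K₃ : ℚ) ≠ 0 := by
    exact_mod_cast hK₃pos.ne'
  field_simp

/-- The special case `g = 1`. -/
theorem one_step (e E K : ℕ) (hK : 0 < K) (hdvd : 2 ^ E * (primorial S.L) ^ 8 ∣ K)
    (he : 2 ^ e < 2 ^ E) (F : Finset ℕ)
    (hF : 2 * ((2 * S.k') ^ 2 + (2 * S.k') * F.card) < 2 ^ S.n) :
    ∃ T : Finset ℕ, Disjoint T F ∧ T.card = 2 * S.k' ∧
      ∑ t ∈ T, (1 : ℚ) / t = ((2 ^ e : ℕ) : ℚ) / K := by
  have := S.good_step 1 1 (by norm_num) le_rfl (Nat.one_le_two_pow)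
    (fun p hp _ _ h => by
      have := Nat.le_of_dvd (by norm_num) h
      have h3 : 1 < p ^ 8 := Nat.one_lt_pow (by norm_num) hp.one_lt
      omega)
    (fun p hp _ _ h => by
      have := Nat.le_of_dvd (by norm_num) h
      have := hp.one_lt
      omega)
    (fun p hp _ h => by
      have := Nat.le_of_dvd (by norm_num) h
      have h3 : 1 < p ^ 2 := Nat.one_lt_pow (by norm_num) hp.one_lt
      omega)
    (fun M hM h => by
      have := (mem_roughSet.1 hM).1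
      have := Nat.le_of_dvd (by norm_num) h
      omega)
    e E K hK hdvd (by simpa using he) F hF
  simpa using this

end Sys

end Vale.Agent.P012
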