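import Mathlib
import Vale.Agent.P012.Sys

/-!
The recursive expansion of a numerator.
-/

namespace Vale.Agent.P012

open Finset Real

lemma two_pow_rpow_le {y a : ℝ} (ha : 0 ≤ a) (hy : (2 : ℝ) ^ 4000 ≤ y) :
    (2 : ℝ) ^ (4000 * a) ≤ y ^ a := by
  have h : (2 : ℝ) ^ (4000 * a) = ((2 : ℝ) ^ (4000 : ℕ)) ^ a := by
    rw [← Real.rpow_natCast, ← Real.rpow_mul (by norm_num)]
    norm_num
  rw [h]
  exact Real.rpow_le_rpow (by positivity) hy ha

lemma numeric_H (L z Y : ℕ) (hY1 : (L : ℝ) ^ 3 ≤ Y) (hY2 : (2 : ℝ) ^ 4000 ≤ Y)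
    (hzL : (z : ℝ) ≤ (L : ℝ) ^ (2.02 : ℝ)) :
    ⌈(Y : ℝ) ^ (0.999 : ℝ)⌉₊ ≤ Y ∧ 100 * (L + z + Nat.sqrt Y) ≤ ⌈(Y : ℝ) ^ (0.999 : ℝ)⌉₊ := by
  set y : ℝ := (Y : ℝ) with hy
  have hy1 : (1 : ℝ) ≤ y := by
    refine le_trans ?_ hY2
    exact one_le_pow₀ (by norm_num)
  have hy0 : 0 < y := lt_of_lt_of_le one_pos hy1
  have hL0 : (0 : ℝ) ≤ L := by positivity
  have ha : y ^ (0.999 : ℝ) * y ^ (0.001 : ℝ) = y := by
    rw [← Real.rpow_add hy0]
    norm_num
  have hb : (16 : ℝ) ≤ y ^ (0.001 : ℝ) := by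
    have := two_pow_rpow_le (a := 0.001) (by norm_num) hY2
    have h2 : (2 : ℝ) ^ (4000 * (0.001 : ℝ)) = 16 := by
      rw [show (4000 * (0.001 : ℝ)) = ((4 : ℕ) : ℝ) by norm_num, Real.rpow_natCast]
      norm_num
    rwa [h2] at this
  have hc : y ^ (0.999 : ℝ) ≤ y / 16 := by
    have h0 : 0 < y ^ (0.999 : ℝ) := by positivity
    rw [le_div_iff₀ (by norm_num)]
    calc y ^ (0.999 : ℝ) * 16 ≤ y ^ (0.999 : ℝ) * y ^ (0.001 : ℝ) :=
          mul_le_mul_of_nonneg_left hb h0.le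
      _ = y := ha
  have hy2 : (2 : ℝ) ≤ y := by
    refine le_trans ?_ hY2
    calc (2 : ℝ) = 2 ^ 1 := by norm_num
      _ ≤ 2 ^ 4000 := pow_le_pow_right₀ (by norm_num) (by norm_num)
  constructor
  · have : ⌈y ^ (0.999 : ℝ)⌉₊ ≤ ⌈y⌉₊ :=
      Nat.ceil_le_ceil (hc.trans (div_le_self hy0.le (by norm_num)))
    rwa [hy, Nat.ceil_natCast] at this
  · -- comparison with `y ^ 0.68`
    have hpow : ∀ {a b : ℝ}, a ≤ b → y ^ a ≤ y ^ b := fun h =>
      Real.rpow_le_rpow_of_exponent_le hy1 h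
    have hLle : (L : ℝ) ≤ y ^ (1 / 3 : ℝ) := by
      have h1 : ((L : ℝ) ^ 3) ^ (1 / 3 : ℝ) = L := by
        rw [← Real.rpow_natCast, ← Real.rpow_mul hL0]
        norm_num
      rw [← h1]
      exact Real.rpow_le_rpow (by positivity) hY1 (by norm_num)
    have hL68 : (L : ℝ) ≤ y ^ (0.68 : ℝ) := hLle.trans (hpow (by norm_num))
    have hz68 : (z : ℝ) ≤ y ^ (0.68 : ℝ) := by
      refine hzL.trans ?_
      have h1 : (L : ℝ) ^ (2.02 : ℝ) ≤ (y ^ (1 / 3 : ℝ)) ^ (2.02 : ℝ) :=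
        Real.rpow_le_rpow hL0 hLle (by norm_num)
      rw [← Real.rpow_mul hy0.le] at h1
      exact h1.trans (hpow (by norm_num))
    have hs68 : ((Nat.sqrt Y : ℕ) : ℝ) ≤ y ^ (0.68 : ℝ) := by
      have h1 : ((Nat.sqrt Y : ℕ) : ℝ) ≤ √y := Real.nat_sqrt_le_real_sqrt
      rw [Real.sqrt_eq_rpow] at h1
      exact h1.trans (hpow (by norm_num))
    have hd : (300 : ℝ) ≤ y ^ (0.319 : ℝ) := by
      have h1 := two_pow_rpow_le (a := 0.319) (by norm_num) hY2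
      refine le_trans ?_ h1
      have h2 : (2 : ℝ) ^ (4000 * (0.319 : ℝ)) ≥ (2 : ℝ) ^ ((9 : ℕ) : ℝ) :=
        Real.rpow_le_rpow_of_exponent_le (by norm_num) (by norm_num)
      rw [Real.rpow_natCast] at h2
      have h3 : (300 : ℝ) ≤ 2 ^ (9 : ℕ) := by norm_num
      exact h3.trans h2
    have he : y ^ (0.999 : ℝ) = y ^ (0.68 : ℝ) * y ^ (0.319 : ℝ) := by
      rw [← Real.rpow_add hy0]
      norm_num
    have hf : 0 ≤ y ^ (0.68 : ℝ) := by positivity
    have hg : (100 : ℝ) * ((L : ℝ) + z + (Nat.sqrt Y : ℕ)) ≤ y ^ (0.999 : ℝ) := by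
      rw [he]
      nlinarith
    have hh : y ^ (0.999 : ℝ) ≤ (⌈y ^ (0.999 : ℝ)⌉₊ : ℝ) := Nat.le_ceil _
    have : ((100 * (L + z + Nat.sqrt Y) : ℕ) : ℝ) ≤ (⌈y ^ (0.999 : ℝ)⌉₊ : ℝ) := by
      push_cast
      exact hg.trans hh
    exact_mod_cast this

/-- The cost function. -/
noncomputable def Cc (b₀ n b : ℕ) : ℝ :=
  if b ≤ b₀ then (b : ℝ)
  else if b ≤ n then (b₀ : ℝ) + 1 + 2000 * log (b : ℝ)
  else (b₀ : ℝ) + 2 + 2000 * log (n : ℝ) + 2000 * ((b : ℝ) - n) / n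

lemma log_nat_nonneg (b : ℕ) : 0 ≤ log (b : ℝ) := Real.log_natCast_nonneg b

lemma Cc_nonneg (b₀ n b : ℕ) : 0 ≤ Cc b₀ n b := by
  unfold Cc
  split_ifs with h1 h2
  · positivity
  · have := log_nat_nonneg b
    positivity
  · push Not at h1 h2
    have h3 : (n : ℝ) ≤ b := by exact_mod_cast h2.le
    have h4 : 0 ≤ (b : ℝ) - n := by linarith
    have := log_nat_nonneg n
    positivity

lemma Cc_succ_mono (b₀ n c : ℕ) (hn : b₀ < n) : Cc b₀ n c ≤ Cc b₀ n (c + 1) := by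
  have hnR : (0 : ℝ) < n := by
    have : 0 < n := by omega
    exact_mod_cast this
  have hlogn := log_nat_nonneg n
  have hlogc1 : 0 ≤ log ((c : ℝ) + 1) := by
    have := log_nat_nonneg (c + 1)
    push_cast at this
    exact this
  have hcast : ((c + 1 : ℕ) : ℝ) = (c : ℝ) + 1 := by push_cast; ring
  unfold Cc
  rw [hcast]
  by_cases h1 : c + 1 ≤ b₀
  · rw [if_pos (by omega : c ≤ b₀), if_pos h1]
    linarith
  by_cases h2 : c ≤ b₀
  · have hc : (c : ℝ) ≤ b₀ := by exact_mod_cast h2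
    rw [if_pos h2, if_neg h1, if_pos (by omega : c + 1 ≤ n)]
    linarith
  by_cases h3 : c + 1 ≤ n
  · have hc : (0 : ℝ) < c := by
      have : 0 < c := by omega
      exact_mod_cast this
    have h4 := Real.log_le_log hc (by linarith : (c : ℝ) ≤ (c : ℝ) + 1)
    rw [if_neg h2, if_neg h1, if_pos (by omega : c ≤ n), if_pos h3]
    linarith
  have h0 : (0 : ℝ) ≤ ((c : ℝ) + 1 - n) / n := by
    apply div_nonneg _ hnR.le
    have : (n : ℝ) ≤ (c : ℝ) + 1 := by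
      have h9 : n ≤ c + 1 := by omega
      exact_mod_cast h9
    linarith
  have h10 : 2000 * ((c : ℝ) + 1 - n) / n = 2000 * (((c : ℝ) + 1 - n) / n) := by ring
  by_cases h4 : c ≤ n
  · have hcn : (c : ℝ) ≤ n := by exact_mod_cast h4
    have hlogcn : log (c : ℝ) ≤ log (n : ℝ) := by
      apply Real.log_le_log _ hcn
      have : 0 < c := by omega
      exact_mod_cast this
    rw [if_neg h2, if_neg h1, if_pos h4, if_neg h3, h10]
    linarith
  · have h11 : 2000 * ((c : ℝ) + 1 - n) / n - 2000 * ((c : ℝ) - n) / n = 2000 / n := by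
      field_simp
      ring
    have h12 : (0 : ℝ) ≤ 2000 / n := by positivity
    rw [if_neg h2, if_neg h1, if_neg h4, if_neg h3]
    linarith

lemma Cc_pred_mono (b₀ n b : ℕ) (hn : b₀ < n) (hb : 1 ≤ b) : Cc b₀ n (b - 1) ≤ Cc b₀ n b := by
  obtain ⟨c, rfl⟩ : ∃ c, b = c + 1 := ⟨b - 1, by omega⟩
  simpa using Cc_succ_mono b₀ n c hn

lemma Cc_base (b₀ n b : ℕ) (hb : 1 ≤ b) (hb' : b ≤ b₀) : Cc b₀ n (b - 1) + 1 ≤ Cc b₀ n b := by
  unfold Cc
  rw [if_pos (by omega), if_pos hb']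
  have : ((b - 1 : ℕ) : ℝ) = (b : ℝ) - 1 := by
    rw [Nat.cast_sub hb]
    simp
  rw [this]
  linarith

lemma Cc_step (b₀ n b : ℕ) (hb₀ : 4000 ≤ b₀) (hn : b₀ < n) (hb : b₀ < b) :
    Cc b₀ n (b + 1 - (min b n) / 1000) + 1 ≤ Cc b₀ n b := by
  set m' := min b n with hm'
  set Q := b + 1 - m' / 1000 with hQ
  have hm'le : m' ≤ b := min_le_left _ _
  have hm'2 : 4001 ≤ m' := by
    rw [hm']
    exact le_min (by omega) (by omega)
  have hdivle : m' / 1000 ≤ b + 1 := (Nat.div_le_self _ _).trans (by omega)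
  have hdiv4 : 4 ≤ m' / 1000 := (Nat.le_div_iff_mul_le (by norm_num)).2 (by omega)
  have hQb : Q < b := by omega
  have hQR : (Q : ℝ) ≤ (b : ℝ) + 2 - (m' : ℝ) / 1000 := by
    have h1 : (Q : ℝ) = (b : ℝ) + 1 - ((m' / 1000 : ℕ) : ℝ) := by
      rw [hQ, Nat.cast_sub hdivle]
      push_cast
      ring
    have h2 : (m' : ℝ) / 1000 < ((m' / 1000 : ℕ) : ℝ) + 1 := by
      have := Nat.lt_floor_add_one ((m' : ℝ) / 1000)
      have h3 : ⌊(m' : ℝ) / 1000⌋₊ = m' / 1000 := by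
        have := Nat.floor_div_eq_div (K := ℝ) m' 1000
        simpa using this
      rwa [h3] at this
    rw [h1]
    linarith
  have hm'R : (4001 : ℝ) ≤ m' := by exact_mod_cast hm'2
  have hQR2 : (Q : ℝ) ≤ (b : ℝ) - (m' : ℝ) / 2000 := by linarith
  have hnpos : (0 : ℝ) < n := by
    have : 0 < n := by omega
    exact_mod_cast this
  have hlogn := log_nat_nonneg n
  have hlogb := log_nat_nonneg b
  rcases le_or_gt b n with hbn | hbn
  · -- the range `b ≤ n`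
    have hm'b : m' = b := min_eq_left hbn
    have hCb : Cc b₀ n b = (b₀ : ℝ) + 1 + 2000 * log (b : ℝ) := by
      unfold Cc
      rw [if_neg (by omega), if_pos hbn]
    rw [hCb]
    unfold Cc
    by_cases hQ0 : Q ≤ b₀
    · rw [if_pos hQ0]
      have : (Q : ℝ) ≤ b₀ := by exact_mod_cast hQ0
      linarith
    · rw [if_neg hQ0, if_pos (by omega)]
      have hQpos : (0 : ℝ) < Q := by
        have : 0 < Q := by omega
        exact_mod_cast this
      have hbR : (0 : ℝ) < b := by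
        have : 0 < b := by omega
        exact_mod_cast this
      have h1 : (Q : ℝ) ≤ (b : ℝ) * (1 - 1 / 2000) := by
        rw [hm'b] at hQR2
        linarith
      have h2 : log (Q : ℝ) ≤ log (b : ℝ) + log (1 - 1 / 2000) := by
        rw [← Real.log_mul hbR.ne' (by norm_num)]
        exact Real.log_le_log hQpos h1
      have h3 : log (1 - 1 / 2000 : ℝ) ≤ (1 - 1 / 2000) - 1 :=
        Real.log_le_sub_one_of_pos (by norm_num)
      linarith
  · -- the range `b > n`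
    have hm'n : m' = n := min_eq_right hbn.le
    have hCb : Cc b₀ n b = (b₀ : ℝ) + 2 + 2000 * log (n : ℝ) + 2000 * ((b : ℝ) - n) / n := by
      unfold Cc
      rw [if_neg (by omega), if_neg (by omega)]
    have hbnR : (n : ℝ) < b := by exact_mod_cast hbn
    have h0 : (0 : ℝ) ≤ 2000 * ((b : ℝ) - n) / n := by
      apply div_nonneg _ hnpos.le
      linarith
    rw [hCb]
    unfold Cc
    by_cases hQ0 : Q ≤ b₀
    · rw [if_pos hQ0]
      have : (Q : ℝ) ≤ b₀ := by exact_mod_cast hQ0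
      linarith
    · rw [if_neg hQ0]
      by_cases hQn : Q ≤ n
      · rw [if_pos hQn]
        have hQpos : (0 : ℝ) < Q := by
          have : 0 < Q := by omega
          exact_mod_cast this
        have : log (Q : ℝ) ≤ log (n : ℝ) :=
          Real.log_le_log hQpos (by exact_mod_cast hQn)
        linarith
      · rw [if_neg hQn]
        have h1 : (Q : ℝ) ≤ (b : ℝ) - (n : ℝ) / 2000 := by
          rw [hm'n] at hQR2
          exact hQR2
        have h2 : 2000 * ((Q : ℝ) - n) / n + 1 ≤ 2000 * ((b : ℝ) - n) / n := by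
          have h3 : 2000 * ((b : ℝ) - n) / n - 2000 * ((Q : ℝ) - n) / n = 2000 * ((b : ℝ) - Q) / n := by
            ring
          have h4 : 1 ≤ 2000 * ((b : ℝ) - Q) / n := by
            rw [le_div_iff₀ hnpos]
            linarith
          linarith
        linarith

lemma Cc_le (b₀ n b : ℕ) (hn : 0 < n) :
    Cc b₀ n b ≤ (b₀ : ℝ) + 2 + 2000 * log (n : ℝ) + 2000 * (b : ℝ) / n := by
  have hnR : (0 : ℝ) < n := by exact_mod_cast hn
  have hlogn := log_nat_nonneg n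
  have h0 : (0 : ℝ) ≤ 2000 * (b : ℝ) / n := by positivity
  unfold Cc
  split_ifs with h1 h2
  · have : (b : ℝ) ≤ b₀ := by exact_mod_cast h1
    linarith
  · have hb0 : (0 : ℝ) < b := by
      have : 0 < b := by omega
      exact_mod_cast this
    have : log (b : ℝ) ≤ log (n : ℝ) := Real.log_le_log hb0 (by exact_mod_cast h2)
    linarith
  · have h3 : 2000 * ((b : ℝ) - n) / n ≤ 2000 * (b : ℝ) / n := by
      apply div_le_div_of_nonneg_right _ hnR.le
      linarith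
    linarith

namespace Sys

variable (S : Sys)

/-- Choice of a good number below `Y`. -/
theorem choose_good (Y : ℕ) (hY1 : (S.L : ℝ) ^ 3 ≤ Y) (hY2 : (2 : ℝ) ^ 4000 ≤ Y)
    (hzL : (S.z : ℝ) ≤ (S.L : ℝ) ^ (2.02 : ℝ)) :
    ∃ g ∈ Ioc (Y - ⌈(Y : ℝ) ^ (0.999 : ℝ)⌉₊) Y,
      (∀ p, p.Prime → 3 ≤ p → p ≤ S.L → ¬ p ^ 8 ∣ g) ∧
      (∀ p, p.Prime → S.L < p → p ≤ S.z → ¬ p ∣ g) ∧
      (∀ p, p.Prime → S.z < p → ¬ p ^ 2 ∣ g) ∧
      (∀ M ∈ roughSet S.z Y, M ∣ g → M ∉ badSet S.D₁ S.z Y ∧ M ∉ badSet S.D₂ S.z Y) := by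
  obtain ⟨h1, h2⟩ := numeric_H S.L S.z Y hY1 hY2 hzL
  exact exists_good S.L S.z Y _ S.W S.D₁ S.D₂ S.hL S.hLz S.hz1 S.hS S.hρ S.D₁_lt S.D₂_lt h1
    (Nat.le_ceil _) h2

/-- The size of `⌈Y ^ 0.999⌉`. -/
lemma ceil_le_two_pow (Y b' : ℕ) (hY : Y < 2 ^ b') :
    ⌈(Y : ℝ) ^ (0.999 : ℝ)⌉₊ ≤ 2 ^ (b' - b' / 1000 + 1) := by
  have h1 : (Y : ℝ) ^ (0.999 : ℝ) ≤ (2 : ℝ) ^ (b' - b' / 1000) := by
    have hYR : (Y : ℝ) ≤ (2 : ℝ) ^ b' := by
      exact_mod_cast hY.le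
    have h2 : (Y : ℝ) ^ (0.999 : ℝ) ≤ ((2 : ℝ) ^ b') ^ (0.999 : ℝ) :=
      Real.rpow_le_rpow (by positivity) hYR (by norm_num)
    refine h2.trans ?_
    rw [← Real.rpow_natCast, ← Real.rpow_mul (by norm_num), ← Real.rpow_natCast]
    apply Real.rpow_le_rpow_of_exponent_le (by norm_num)
    have h3 : ((b' / 1000 : ℕ) : ℝ) ≤ (b' : ℝ) / 1000 := Nat.cast_div_le
    rw [Nat.cast_sub (Nat.div_le_self _ _)]
    push_cast at h3 ⊢
    linarith
  have h4 : ⌈(Y : ℝ) ^ (0.999 : ℝ)⌉₊ ≤ 2 ^ (b' - b' / 1000) + 1 := by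
    have h5 : (⌈(Y : ℝ) ^ (0.999 : ℝ)⌉₊ : ℝ) < (Y : ℝ) ^ (0.999 : ℝ) + 1 :=
      Nat.ceil_lt_add_one (by positivity)
    have h6 : (⌈(Y : ℝ) ^ (0.999 : ℝ)⌉₊ : ℝ) < ((2 ^ (b' - b' / 1000) + 1 : ℕ) : ℝ) := by
      push_cast
      linarith
    have : ⌈(Y : ℝ) ^ (0.999 : ℝ)⌉₊ < 2 ^ (b' - b' / 1000) + 1 := by exact_mod_cast h6
    omega
  have h7 : 1 ≤ 2 ^ (b' - b' / 1000) := Nat.one_le_two_pow
  have h8 : 2 ^ (b' - b' / 1000 + 1) = 2 * 2 ^ (b' - b' / 1000) := by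
    rw [pow_succ]; ring
  omega

/-- The recursive expansion. -/
theorem expand (b₀ E K : ℕ) (hb₀ : 4000 ≤ b₀) (hn : b₀ < S.n) (hK : 0 < K)
    (hdvd : 2 ^ E * (primorial S.L) ^ 8 ∣ K)
    (hb₀L : (S.L : ℝ) ^ 3 ≤ (2 : ℝ) ^ b₀)
    (hzL : (S.z : ℝ) ≤ (S.L : ℝ) ^ (2.02 : ℝ))
    (Fmax : ℝ)
    (hFmax : 2 * (((2 * S.k' : ℕ) : ℝ) ^ 2 + ((2 * S.k' : ℕ) : ℝ) * Fmax) < (2 : ℝ) ^ S.n) :
    ∀ b, b ≤ E → ∀ m : ℕ, m < 2 ^ b → ∀ F : Finset ℕ,
      (F.card : ℝ) + ((2 * S.k' : ℕ) : ℝ) * Cc b₀ S.n b ≤ Fmax →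
      ∃ T : Finset ℕ, Disjoint T F ∧
        (T.card : ℝ) ≤ ((2 * S.k' : ℕ) : ℝ) * Cc b₀ S.n b ∧
        ∑ t ∈ T, (1 : ℚ) / t = (m : ℚ) / K := by
  classical
  intro b
  induction b using Nat.strong_induction_on with
  | _ b ih =>
    intro hbE m hm F hF
    have hk0 : (0 : ℝ) ≤ ((2 * S.k' : ℕ) : ℝ) := by positivity
    have hKq : (K : ℚ) ≠ 0 := by exact_mod_cast hK.ne'
    rcases Nat.eq_zero_or_pos b with rfl | hb1
    · -- `m = 0`
      have hm0 : m = 0 := by simpa using hm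
      subst hm0
      refine ⟨∅, disjoint_empty_left _, ?_, by simp⟩
      simp only [card_empty, Nat.cast_zero]
      exact mul_nonneg hk0 (Cc_nonneg _ _ _)
    by_cases hm2 : m < 2 ^ (b - 1)
    · -- fewer bits
      have hmono := Cc_pred_mono b₀ S.n b hn hb1
      have hmono' : ((2 * S.k' : ℕ) : ℝ) * Cc b₀ S.n (b - 1) ≤ ((2 * S.k' : ℕ) : ℝ) * Cc b₀ S.n b :=
        mul_le_mul_of_nonneg_left hmono hk0
      obtain ⟨T, hT1, hT2, hT3⟩ := ih (b - 1) (by omega) (by omega) m hm2 F (by linarith)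
      exact ⟨T, hT1, hT2.trans hmono', hT3⟩
    push Not at hm2
    -- a helper to combine the two parts
    have combine : ∀ (e g c : ℕ), 2 ^ e * g ≤ m → c < b →
        m - 2 ^ e * g < 2 ^ c → Cc b₀ S.n c + 1 ≤ Cc b₀ S.n b →
        (∀ F' : Finset ℕ, 2 * ((2 * S.k') ^ 2 + (2 * S.k') * F'.card) < 2 ^ S.n →
          ∃ T : Finset ℕ, Disjoint T F' ∧ T.card = 2 * S.k' ∧
            ∑ t ∈ T, (1 : ℚ) / t = ((2 ^ e * g : ℕ) : ℚ) / K) →
        ∃ T : Finset ℕ, Disjoint T F ∧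
          (T.card : ℝ) ≤ ((2 * S.k' : ℕ) : ℝ) * Cc b₀ S.n b ∧
          ∑ t ∈ T, (1 : ℚ) / t = (m : ℚ) / K := by
      intro e g c hle hcb hr hCc hstep
      have hmul : ((2 * S.k' : ℕ) : ℝ) * (Cc b₀ S.n c + 1) ≤ ((2 * S.k' : ℕ) : ℝ) * Cc b₀ S.n b :=
        mul_le_mul_of_nonneg_left hCc hk0
      have hF1 : (F.card : ℝ) + ((2 * S.k' : ℕ) : ℝ) * Cc b₀ S.n c ≤ Fmax := by
        nlinarith
      obtain ⟨T₁, hT1, hT2, hT3⟩ := ih c hcb (by omega) (m - 2 ^ e * g) hr F hF1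
      set F' := F ∪ T₁ with hF'
      have hF'card : (F'.card : ℝ) ≤ Fmax := by
        have h1 : (F'.card : ℝ) ≤ (F.card : ℝ) + (T₁.card : ℝ) := by
          exact_mod_cast card_union_le F T₁
        linarith
      have hF'2 : 2 * ((2 * S.k') ^ 2 + (2 * S.k') * F'.card) < 2 ^ S.n := by
        have h2 : ((2 * ((2 * S.k') ^ 2 + (2 * S.k') * F'.card) : ℕ) : ℝ) < ((2 ^ S.n : ℕ) : ℝ) := by
          push_cast at hFmax ⊢
          have h3 : (2 * (S.k' : ℝ)) * (F'.card : ℝ) ≤ (2 * (S.k' : ℝ)) * Fmax :=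
            mul_le_mul_of_nonneg_left hF'card (by positivity)
          linarith
        exact_mod_cast h2
      obtain ⟨T₂, hT21, hT22, hT23⟩ := hstep F' hF'2
      have hdisj12 : Disjoint T₂ T₁ :=
        Finset.disjoint_of_subset_right subset_union_right hT21
      have hdisj2F : Disjoint T₂ F :=
        Finset.disjoint_of_subset_right subset_union_left hT21
      refine ⟨T₂ ∪ T₁, ?_, ?_, ?_⟩
      · exact Finset.disjoint_union_left.2 ⟨hdisj2F, hT1⟩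
      · have h1 : ((T₂ ∪ T₁).card : ℝ) ≤ (T₂.card : ℝ) + (T₁.card : ℝ) := by
          exact_mod_cast card_union_le T₂ T₁
        have h2 : (T₂.card : ℝ) = ((2 * S.k' : ℕ) : ℝ) := by rw [hT22]
        nlinarith
      · rw [sum_union hdisj12, hT23, hT3, ← add_div]
        congr 1
        have : m = 2 ^ e * g + (m - 2 ^ e * g) := (Nat.add_sub_cancel' hle).symm
        conv_rhs => rw [this]
        push_cast
        ring
    by_cases hb : b ≤ b₀
    · -- small numbers: use `g = 1`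
      refine combine (b - 1) 1 (b - 1) (by simpa using hm2) (by omega) ?_ (Cc_base b₀ S.n b hb1 hb) ?_
      · have h1 : 2 ^ b = 2 * 2 ^ (b - 1) := by
          obtain ⟨c, rfl⟩ : ∃ c, b = c + 1 := ⟨b - 1, by omega⟩
          simp [pow_succ, mul_comm]
        simp only [mul_one]
        omega
      · intro F' hF'
        have h2 : 2 ^ (b - 1) < 2 ^ E := Nat.pow_lt_pow_right (by norm_num) (by omega)
        simpa using S.one_step (b - 1) E K hK hdvd h2 F' hF'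
    · -- the main case
      push Not at hb
      set b' := min b S.n with hb'
      have hb'le : b' ≤ b := min_le_left _ _
      have hb'2 : b₀ < b' := lt_min hb hn
      set e := b - b' with he
      have heb : e + b' = b := by omega
      set Y := m / 2 ^ e with hY
      have h2e : 0 < 2 ^ e := by positivity
      have hYlt : Y < 2 ^ b' := by
        apply Nat.div_lt_of_lt_mul
        rw [← pow_add, heb]
        exact hm
      have hYge : 2 ^ (b' - 1) ≤ Y := by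
        apply (Nat.le_div_iff_mul_le h2e).2
        rw [← pow_add]
        have : b' - 1 + e = b - 1 := by omega
        rw [this]
        exact hm2
      have hYR1 : (2 : ℝ) ^ (b' - 1) ≤ Y := by exact_mod_cast hYge
      have hYR2 : (2 : ℝ) ^ b₀ ≤ Y :=
        (pow_le_pow_right₀ (by norm_num) (by omega)).trans hYR1
      have hYR3 : (2 : ℝ) ^ 4000 ≤ Y :=
        (pow_le_pow_right₀ (by norm_num) hb₀).trans hYR2
      obtain ⟨g, hg, h1, h2, h3, h4⟩ := S.choose_good Y (hb₀L.trans hYR2) hYR3 hzL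
      obtain ⟨hg1, hg2⟩ := mem_Ioc.1 hg
      have hgpos : 0 < g := by omega
      set H := ⌈(Y : ℝ) ^ (0.999 : ℝ)⌉₊ with hH
      have hHle := ceil_le_two_pow Y b' hYlt
      have hmdm : 2 ^ e * Y + m % 2 ^ e = m := Nat.div_add_mod m (2 ^ e)
      have hmod : m % 2 ^ e < 2 ^ e := Nat.mod_lt _ h2e
      have hle : 2 ^ e * g ≤ m := by
        have : 2 ^ e * g ≤ 2 ^ e * Y := Nat.mul_le_mul_left _ hg2
        omega
      have hYg : Y - g < H := by omega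
      have hr : m - 2 ^ e * g < 2 ^ (b + 1 - b' / 1000) := by
        have e1 : 2 ^ (b + 1 - b' / 1000) = 2 ^ e * 2 ^ (b' - b' / 1000 + 1) := by
          rw [← pow_add]
          congr 1
          have : b' / 1000 ≤ b' := Nat.div_le_self _ _
          omega
        rw [e1]
        have e2 : 2 ^ e * (Y - g + 1) ≤ 2 ^ e * 2 ^ (b' - b' / 1000 + 1) :=
          Nat.mul_le_mul_left _ (by omega)
        have e3 : 2 ^ e * (Y - g + 1) = 2 ^ e * (Y - g) + 2 ^ e := by ring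
        have e4 : 2 ^ e * (Y - g) = 2 ^ e * Y - 2 ^ e * g := by
          rw [Nat.mul_sub]
        have e5 : 2 ^ e * g ≤ 2 ^ e * Y := Nat.mul_le_mul_left _ hg2
        omega
      have hQb : b + 1 - b' / 1000 < b := by
        have : 4 ≤ b' / 1000 := (Nat.le_div_iff_mul_le (by norm_num)).2 (by omega)
        omega
      refine combine e g (b + 1 - b' / 1000) hle hQb hr (Cc_step b₀ S.n b hb₀ hn hb) ?_
      intro F' hF'
      have hlt : 2 ^ e * g < 2 ^ E :=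
        lt_of_le_of_lt hle (lt_of_lt_of_le hm (Nat.pow_le_pow_right (by norm_num) hbE))
      have hYΔ : Y ≤ 2 ^ S.n :=
        hYlt.le.trans (Nat.pow_le_pow_right (by norm_num) (min_le_right _ _))
      exact S.good_step g Y hgpos hg2 hYΔ h1 h2 h3 h4 e E K hK hdvd hlt F' hF'

end Sys

end Vale.Agent.P012
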