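import Mathlib

/-!
The greedy (Sylvester) reduction: after about `log log V` terms the remaining value is below `1 / V`.
-/

namespace Vale.Agent.P012

open Finset

/-- Iterated growth of the greedy lower bound. -/
def uu : ℕ → ℕ → ℕ
  | c, 0 => c
  | c, t + 1 => uu (c * (c + 1)) t

lemma uu_mono (t : ℕ) : ∀ {c c' : ℕ}, c ≤ c' → uu c t ≤ uu c' t := by
  induction t with
  | zero => intro c c' h; simpa [uu] using h
  | succ t ih =>
    intro c c' h
    simp only [uu]
    exact ih (Nat.mul_le_mul h (by omega))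

lemma pow_le_uu (t : ℕ) : ∀ {c : ℕ}, 1 ≤ c → c ^ (2 ^ t) ≤ uu c t := by
  induction t with
  | zero => intro c _; simp [uu]
  | succ t ih =>
    intro c hc
    simp only [uu]
    have h1 : 1 ≤ c * (c + 1) := Nat.mul_pos hc (by omega)
    refine le_trans ?_ (ih h1)
    rw [pow_succ 2 t, mul_comm (2 ^ t) 2, pow_mul]
    apply Nat.pow_le_pow_left
    nlinarith

theorem greedy_aux (b V : ℕ) (hb : 1 ≤ b) (t : ℕ) :
    ∀ c Q A : ℕ, 1 ≤ c → 1 ≤ Q → Q ≤ c → c ≤ V ^ 2 → A * c < b * Q → V ≤ uu c t →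
      ∃ (S : Finset ℕ) (A' Q' : ℕ), (∀ n ∈ S, c + 1 ≤ n) ∧ S.card ≤ t ∧ 1 ≤ Q' ∧ Q' ≤ V ^ 2 ∧
        A' * V < b * Q' ∧
        (A : ℚ) / (b * Q) = ∑ n ∈ S, (1 : ℚ) / n + (A' : ℚ) / (b * Q') := by
  classical
  induction t with
  | zero =>
    intro c Q A hc hQ hQc hcV hA hV
    simp only [uu] at hV
    refine ⟨∅, A, Q, by simp, by simp, hQ, hQc.trans hcV, ?_, by simp⟩
    calc A * V ≤ A * c := Nat.mul_le_mul_left _ hV
      _ < b * Q := hA
  | succ t ih =>
    intro c Q A hc hQ hQc hcV hA hV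
    by_cases hstop : A * V < b * Q
    · exact ⟨∅, A, Q, by simp, by simp, hQ, hQc.trans hcV, hstop, by simp⟩
    push Not at hstop
    have hbQ : 0 < b * Q := Nat.mul_pos hb hQ
    have hApos : 0 < A := by
      rcases Nat.eq_zero_or_pos A with rfl | h
      · simp at hstop
        omega
      · exact h
    -- the least `n` with `b * Q ≤ n * A`
    have hex : ∃ n, b * Q ≤ n * A := ⟨V, by rwa [mul_comm V A]⟩
    set n := Nat.find hex with hn
    have hn1 : b * Q ≤ n * A := Nat.find_spec hex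
    have hnV : n ≤ V := Nat.find_min' hex (by rwa [mul_comm V A])
    have hcn : c < n := by
      by_contra hcon
      push Not at hcon
      have : n * A ≤ c * A := Nat.mul_le_mul_right _ hcon
      rw [mul_comm c A] at this
      omega
    obtain ⟨m, hm⟩ : ∃ m, n = m + 1 := ⟨n - 1, by omega⟩
    have hn2 : m * A < b * Q := by
      have := Nat.find_min hex (m := m) (by omega)
      omega
    have hcm : c ≤ m := by omega
    have hm1 : 1 ≤ m := hc.trans hcm
    -- new parameters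
    set A₁ := n * A - b * Q with hA₁
    have hA₁lt : A₁ < A := by
      rw [hA₁, hm]
      have : (m + 1) * A = m * A + A := by ring
      omega
    set c₁ := n * m with hc₁
    set Q₁ := Q * n with hQ₁
    have hc₁ge : c * (c + 1) ≤ c₁ := by
      rw [hc₁, mul_comm n m]
      exact Nat.mul_le_mul hcm (by omega)
    have hV' : V ≤ uu c₁ t := hV.trans (uu_mono t hc₁ge)
    have hc₁V : c₁ ≤ V ^ 2 := by
      rw [hc₁, pow_two]
      exact Nat.mul_le_mul hnV (by omega)
    have hQ₁pos : 1 ≤ Q₁ := Nat.mul_pos hQ (by omega)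
    have hQ₁le : Q₁ ≤ c₁ := by
      rw [hQ₁, hc₁, mul_comm Q n]
      exact Nat.mul_le_mul_left _ (by omega)
    have hA₁ineq : A₁ * c₁ < b * Q₁ := by
      have e1 : A₁ * m < b * Q := by
        calc A₁ * m ≤ A * m := Nat.mul_le_mul_right _ hA₁lt.le
          _ = m * A := mul_comm _ _
          _ < b * Q := hn2
      have hnpos : 0 < n := by omega
      calc A₁ * c₁ = (A₁ * m) * n := by rw [hc₁]; ring
        _ < (b * Q) * n := Nat.mul_lt_mul_of_pos_right e1 hnpos
        _ = b * Q₁ := by rw [hQ₁]; ring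
    obtain ⟨S, A', Q', hS1, hS2, hQ'1, hQ'2, hA', hsum⟩ :=
      ih c₁ Q₁ A₁ (by
        rw [hc₁]
        exact Nat.mul_pos (by omega) (by omega)) hQ₁pos hQ₁le hc₁V hA₁ineq hV'
    have hnS : n ∉ S := by
      intro h
      have h1 := hS1 n h
      have h2 : n ≤ n * m := Nat.le_mul_of_pos_right _ (by omega)
      rw [← hc₁] at h2
      omega
    refine ⟨insert n S, A', Q', ?_, ?_, hQ'1, hQ'2, hA', ?_⟩
    · intro x hx
      rcases mem_insert.1 hx with rfl | hx
      · omega
      · have h1 := hS1 x hx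
        have h2 : n ≤ n * m := Nat.le_mul_of_pos_right _ (by omega)
        rw [← hc₁] at h2
        omega
    · rw [card_insert_of_notMem hnS]
      omega
    · rw [sum_insert hnS, add_assoc, ← hsum]
      have hnq : (n : ℚ) ≠ 0 := by
        have : n ≠ 0 := by omega
        exact_mod_cast this
      have hbq : (b : ℚ) ≠ 0 := by
        have : b ≠ 0 := by omega
        exact_mod_cast this
      have hQq : (Q : ℚ) ≠ 0 := by
        have : Q ≠ 0 := by omega
        exact_mod_cast this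
      have hA₁q : (A₁ : ℚ) = (n : ℚ) * A - b * Q := by
        rw [hA₁, Nat.cast_sub hn1]
        push_cast
        ring
      rw [hQ₁, hA₁q]
      push_cast
      field_simp
      ring

/-- The greedy reduction. -/
theorem greedy (a b V t : ℕ) (hb : 1 ≤ b) (hab : a < b) (hV1 : 1 ≤ V) (hV : V ≤ uu 1 t) :
    ∃ (S : Finset ℕ) (A Q : ℕ), (∀ n ∈ S, 2 ≤ n) ∧ S.card ≤ t ∧ 1 ≤ Q ∧ Q ≤ V ^ 2 ∧
      A * V < b * Q ∧ (a : ℚ) / b = ∑ n ∈ S, (1 : ℚ) / n + (A : ℚ) / (b * Q) := by
  obtain ⟨S, A', Q', h1, h2, h3, h4, h5, h6⟩ :=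
    greedy_aux b V hb t 1 1 a le_rfl le_rfl le_rfl (Nat.one_le_pow _ _ hV1) (by simpa using hab) hV
  refine ⟨S, A', Q', h1, h2, h3, h4, h5, ?_⟩
  simpa using h6

/-- The number of greedy steps needed for `V = 2 ^ w`. -/
lemma two_pow_le_uu (w : ℕ) (hw : 1 ≤ w) : 2 ^ w ≤ uu 1 (Nat.log 2 w + 2) := by
  have h1 : uu 1 (Nat.log 2 w + 2) = uu 2 (Nat.log 2 w + 1) := by
    simp [uu]
  rw [h1]
  refine le_trans ?_ (pow_le_uu _ (by norm_num))
  apply Nat.pow_le_pow_right (by norm_num)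
  exact (Nat.lt_pow_succ_log_self (by norm_num) w).le

end Vale.Agent.P012
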