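import Mathlib
import Vale.Agent.P012.Expand
import Vale.Agent.P012.Greedy

/-!
Assembling the greedy reduction with the expansion of the two numerators.
-/

namespace Vale.Agent.P012

open Finset Real

namespace Sys

variable (S : Sys)

theorem assemble (b₀ : ℕ) (hb₀ : 4000 ≤ b₀) (hn : b₀ < S.n)
    (hb₀L : (S.L : ℝ) ^ 3 ≤ (2 : ℝ) ^ b₀)
    (hzL : (S.z : ℝ) ≤ (S.L : ℝ) ^ (2.02 : ℝ))
    (t : ℕ) (ht : 2 ^ (16 * S.L) ≤ uu 1 t)
    (Fmax : ℝ)
    (hFmax : 2 * (((2 * S.k' : ℕ) : ℝ) ^ 2 + ((2 * S.k' : ℕ) : ℝ) * Fmax) < (2 : ℝ) ^ S.n)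
    (hFdef : (t : ℝ) + 2 + 2 * (((2 * S.k' : ℕ) : ℝ) * Cc b₀ S.n (34 * S.L)) ≤ Fmax)
    (a b : ℕ) (hab : a < b) (hbL : b < 2 ^ S.L) :
    ∃ T : Finset ℕ, (∀ n ∈ T, 2 ≤ n) ∧ ∑ n ∈ T, (1 : ℚ) / n = (a : ℚ) / b ∧
      (T.card : ℝ) ≤ (t : ℝ) + 2 * (((2 * S.k' : ℕ) : ℝ) * Cc b₀ S.n (34 * S.L)) := by
  classical
  set L := S.L with hLdef
  set V : ℕ := 2 ^ (16 * L) with hV
  set E : ℕ := 34 * L with hE
  have hb1 : 1 ≤ b := by omega
  have hV1 : 1 ≤ V := Nat.one_le_two_pow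
  obtain ⟨S₀, A, Q, hS₀2, hS₀t, hQ1, hQ2, hAV, hsum₀⟩ := greedy a b V t hb1 hab hV1 ht
  set B := b * Q with hB
  have hBpos : 0 < B := Nat.mul_pos hb1 hQ1
  -- size of `B`
  have hBlt : B < 2 ^ E := by
    have h1 : Q ≤ 2 ^ (32 * L) := by
      have : V ^ 2 = 2 ^ (32 * L) := by
        rw [hV, ← pow_mul]
        congr 1
        ring
      omega
    calc B = b * Q := rfl
      _ < 2 ^ L * Q := Nat.mul_lt_mul_of_pos_right hbL hQ1
      _ ≤ 2 ^ L * 2 ^ (32 * L) := Nat.mul_le_mul_left _ h1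
      _ = 2 ^ (33 * L) := by
        rw [← pow_add]
        congr 1
        ring
      _ ≤ 2 ^ E := Nat.pow_le_pow_right (by norm_num) (by omega)
  set P := primorial L with hP
  have hPpos : 0 < P := primorial_pos L
  have hP8 : P ^ 8 ≤ V := by
    have h1 : P ≤ 4 ^ L := primorial_le_four_pow L
    calc P ^ 8 ≤ (4 ^ L) ^ 8 := Nat.pow_le_pow_left h1 8
      _ = V := by
        rw [hV, show (4 : ℕ) = 2 ^ 2 by norm_num, ← pow_mul, ← pow_mul]
        congr 1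
        ring
  set K₀ := 2 ^ E * P ^ 8 with hK₀
  have hK₀pos : 0 < K₀ := by positivity
  set q := A * K₀ / B with hq
  set r := A * K₀ % B with hr
  have hqr : B * q + r = A * K₀ := Nat.div_add_mod _ _
  have hrlt : r < B := Nat.mod_lt _ hBpos
  have hqlt : q < 2 ^ E := by
    by_contra hcon
    push Not at hcon
    have h1 : B * 2 ^ E ≤ A * K₀ := by
      calc B * 2 ^ E ≤ B * q := Nat.mul_le_mul_left _ hcon
        _ ≤ A * K₀ := by omega
    have h2 : A * V * K₀ < B * K₀ := Nat.mul_lt_mul_of_pos_right hAV hK₀pos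
    have h3 : B * 2 ^ E * V ≤ A * K₀ * V := Nat.mul_le_mul_right _ h1
    have h4 : B * K₀ ≤ B * 2 ^ E * V := by
      calc B * K₀ = B * 2 ^ E * P ^ 8 := by rw [hK₀]; ring
        _ ≤ B * 2 ^ E * V := Nat.mul_le_mul_left _ hP8
    have h5 : A * K₀ * V = A * V * K₀ := by ring
    omega
  -- first expansion
  set F₀ : Finset ℕ := S₀ ∪ {0, 1} with hF₀
  have hF₀card : (F₀.card : ℝ) ≤ (t : ℝ) + 2 := by
    have h1 : F₀.card ≤ S₀.card + ({0, 1} : Finset ℕ).card := card_union_le _ _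
    have h2 : ({0, 1} : Finset ℕ).card = 2 := by decide
    have h3 : F₀.card ≤ t + 2 := by omega
    exact_mod_cast h3
  have hCc0 : 0 ≤ ((2 * S.k' : ℕ) : ℝ) * Cc b₀ S.n E :=
    mul_nonneg (by positivity) (Cc_nonneg _ _ _)
  obtain ⟨T₁, hT₁d, hT₁c, hT₁s⟩ := S.expand b₀ E K₀ hb₀ hn hK₀pos (dvd_refl _) hb₀L hzL Fmax hFmax
    E le_rfl q hqlt F₀ (by linarith)
  -- second expansion
  set F₁ : Finset ℕ := F₀ ∪ T₁ with hF₁
  have hF₁card : (F₁.card : ℝ) ≤ (F₀.card : ℝ) + (T₁.card : ℝ) := by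
    exact_mod_cast card_union_le F₀ T₁
  have hK₁pos : 0 < B * K₀ := Nat.mul_pos hBpos hK₀pos
  obtain ⟨T₂, hT₂d, hT₂c, hT₂s⟩ := S.expand b₀ E (B * K₀) hb₀ hn hK₁pos (dvd_mul_left _ _) hb₀L hzL
    Fmax hFmax E le_rfl r (hrlt.trans hBlt) F₁ (by linarith)
  -- combine
  have hd1 : Disjoint S₀ T₁ :=
    (Finset.disjoint_of_subset_right subset_union_left hT₁d).symm
  have hd2 : Disjoint (S₀ ∪ T₁) T₂ := by
    rw [disjoint_comm]
    refine Finset.disjoint_of_subset_right ?_ hT₂d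
    exact union_subset_union subset_union_left subset_rfl
  refine ⟨(S₀ ∪ T₁) ∪ T₂, ?_, ?_, ?_⟩
  · intro x hx
    rcases mem_union.1 hx with hx | hx
    · rcases mem_union.1 hx with hx | hx
      · exact hS₀2 x hx
      · have h1 : x ∉ F₀ := Finset.disjoint_left.1 hT₁d hx
        simp only [hF₀, mem_union, mem_insert, mem_singleton, not_or] at h1
        omega
    · have h1 : x ∉ F₁ := Finset.disjoint_left.1 hT₂d hx
      simp only [hF₁, hF₀, mem_union, mem_insert, mem_singleton, not_or] at h1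
      omega
  · rw [sum_union hd2, sum_union hd1, hT₁s, hT₂s, hsum₀, add_assoc]
    congr 1
    have hBq : (B : ℚ) ≠ 0 := by exact_mod_cast hBpos.ne'
    have hKq : (K₀ : ℚ) ≠ 0 := by exact_mod_cast hK₀pos.ne'
    have hqrq : (B : ℚ) * q + r = A * K₀ := by exact_mod_cast hqr
    have hBb : (b : ℚ) * Q = B := by
      rw [hB]
      push_cast
      ring
    rw [hBb]
    push_cast
    field_simp
    linarith
  · have h1 : (((S₀ ∪ T₁) ∪ T₂).card : ℝ) ≤ (S₀.card : ℝ) + (T₁.card : ℝ) + (T₂.card : ℝ) := by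
      have h2 := card_union_le (S₀ ∪ T₁) T₂
      have h3 := card_union_le S₀ T₁
      have h4 : ((S₀ ∪ T₁) ∪ T₂).card ≤ S₀.card + T₁.card + T₂.card := by omega
      exact_mod_cast h4
    have h5 : (S₀.card : ℝ) ≤ t := by exact_mod_cast hS₀t
    linarith

end Sys

end Vale.Agent.P012
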