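import Mathlib
import Vale.Agent.P012.Assemble

/-!
Construction of the parameters for large `L`, and the final bound.
-/

namespace Vale.Agent.P012

open Finset Real

lemma exp_ge_fourth {X : ℝ} (hX : 0 ≤ X) : X ^ 4 / 24 ≤ exp X := by
  have := Real.pow_div_factorial_le_exp X hX 4
  simpa [Nat.factorial] using this

/-- Numerical facts on `L`. -/
lemma L_big {L : ℕ} {X : ℝ} (hX : X = log (L : ℝ)) (hX0 : 1000000000 ≤ X) :
    (5 * 10 ^ 14 : ℝ) * X ^ 2 ≤ L ∧ (0 : ℝ) < L := by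
  have hL0 : (0 : ℝ) < L := by
    by_contra h
    have h0 : (L : ℝ) = 0 := le_antisymm (not_lt.1 h) (by positivity)
    rw [hX, h0, log_zero] at hX0
    linarith
  have hLexp : (L : ℝ) = exp X := by rw [hX, exp_log hL0]
  refine ⟨?_, hL0⟩
  rw [hLexp]
  refine le_trans ?_ (exp_ge_fourth (by linarith))
  have h1 : (2 * 10 ^ 16 : ℝ) ≤ X ^ 2 := by nlinarith
  nlinarith [sq_nonneg X]

/-- A power comparison through logarithms. -/
lemma two_mul_four_pow_le (k : ℕ) (x : ℝ) (hx : 0 < x) (h : 2 * (k : ℝ) + 1 ≤ log x) :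
    2 * (4 : ℝ) ^ k ≤ x := by
  have h1 : log (2 * (4 : ℝ) ^ k) = log 2 + k * log 4 := by
    rw [Real.log_mul (by norm_num) (by positivity), Real.log_pow]
  have hlog2 := Real.log_two_lt_d9
  have hlog4 : log (4 : ℝ) = 2 * log 2 := by
    rw [show (4 : ℝ) = 2 ^ 2 by norm_num, Real.log_pow]
    norm_num
  have hk : (0 : ℝ) ≤ k := by positivity
  have h2 : log (2 * (4 : ℝ) ^ k) ≤ log x := by
    rw [h1, hlog4]
    nlinarith
  exact (Real.log_le_log_iff (by positivity) hx).1 h2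

/-- The bound on the density of bad numbers. -/
lemma rho_bound (L z W : ℕ) (hX : 10000 ≤ log (L : ℝ)) (hz : (L : ℝ) ^ (2.01 : ℝ) ≤ z)
    (hW : (W : ℝ) ≤ 3 * L) :
    (1 + (z : ℝ) ^ (-sigmaC)) ^ W - 1 ≤ 1 / 1000 := by
  have hL0 : (0 : ℝ) < L := by
    by_contra h
    have h0 : (L : ℝ) = 0 := le_antisymm (not_lt.1 h) (by positivity)
    rw [h0, log_zero] at hX
    linarith
  have hL1 : (1 : ℝ) ≤ L := by
    have : 0 < L := by exact_mod_cast hL0
    exact_mod_cast this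
  have hz0 : (0 : ℝ) < z := lt_of_lt_of_le (by positivity) hz
  set t : ℝ := (z : ℝ) ^ (-sigmaC) with ht
  have ht0 : 0 < t := by positivity
  have ht1 : t ≤ (L : ℝ) ^ (-(1.0019 : ℝ)) := by
    have h1 : t ≤ ((L : ℝ) ^ (2.01 : ℝ)) ^ (-sigmaC) :=
      Real.rpow_le_rpow_of_nonpos (by positivity) hz (by norm_num [sigmaC])
    refine h1.trans ?_
    rw [← Real.rpow_mul hL0.le]
    apply Real.rpow_le_rpow_of_exponent_le hL1
    norm_num [sigmaC]
  have hy : (W : ℝ) * t ≤ 1 / 2000 := by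
    have h2 : (L : ℝ) * (L : ℝ) ^ (-(1.0019 : ℝ)) = (L : ℝ) ^ (-(0.0019 : ℝ)) := by
      nth_rewrite 1 [← Real.rpow_one (L : ℝ)]
      rw [← Real.rpow_add hL0]
      norm_num
    have h3 : (L : ℝ) ^ (-(0.0019 : ℝ)) = exp (-(0.0019 * log (L : ℝ))) := by
      rw [Real.rpow_def_of_pos hL0]
      congr 1
      ring
    have h4 : exp (-(0.0019 * log (L : ℝ))) ≤ exp (-19) :=
      Real.exp_le_exp.2 (by linarith)
    have h5 : exp (-19 : ℝ) ≤ 1 / 6000 := by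
      rw [Real.exp_neg, ← one_div]
      apply one_div_le_one_div_of_le (by norm_num)
      have h6 : (2 : ℝ) ^ 19 ≤ exp 19 := by
        have : exp (19 : ℝ) = (exp 1) ^ (19 : ℕ) := by
          rw [← Real.exp_nat_mul]
          norm_num
        rw [this]
        apply pow_le_pow_left₀ (by norm_num)
        have := Real.add_one_le_exp (1 : ℝ)
        linarith
      have h7 : (6000 : ℝ) ≤ 2 ^ 19 := by norm_num
      linarith
    calc (W : ℝ) * t ≤ (3 * L) * (L : ℝ) ^ (-(1.0019 : ℝ)) :=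
          mul_le_mul hW ht1 ht0.le (by positivity)
      _ = 3 * ((L : ℝ) * (L : ℝ) ^ (-(1.0019 : ℝ))) := by ring
      _ ≤ 3 * (1 / 6000) := by
          rw [h2, h3]
          linarith
      _ = 1 / 2000 := by norm_num
  have h8 : (1 + t) ^ W ≤ exp ((W : ℝ) * t) := by
    have h9 : 1 + t ≤ exp t := by
      have := Real.add_one_le_exp t
      linarith
    calc (1 + t) ^ W ≤ (exp t) ^ W := pow_le_pow_left₀ (by positivity) h9 W
      _ = exp ((W : ℝ) * t) := by rw [← Real.exp_nat_mul]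
  have h10 : exp ((W : ℝ) * t) ≤ exp (1 / 2000) := Real.exp_le_exp.2 hy
  have h11 : exp (1 / 2000 : ℝ) ≤ 1 + 1 / 1000 := by
    have h12 : 1 - (1 / 2000 : ℝ) ≤ exp (-(1 / 2000)) := by
      have := Real.add_one_le_exp (-(1 / 2000 : ℝ))
      linarith
    have h13 : exp (1 / 2000 : ℝ) * exp (-(1 / 2000)) = 1 := by
      rw [← Real.exp_add]
      simp
    have h14 : 0 < exp (1 / 2000 : ℝ) := exp_pos _
    nlinarith
  linarith

/-- Existence of a system of parameters for large `L`. -/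
theorem exists_sys (L : ℕ) (hX : 1000000000 ≤ log (L : ℝ)) :
    ∃ S : Sys, S.L = L ∧ (S.z : ℝ) ≤ (L : ℝ) ^ (2.02 : ℝ) ∧ (S.k' : ℝ) = 3000 ∧
      (L : ℝ) / (5 * log (L : ℝ)) ≤ S.n ∧ S.n ≤ L := by
  classical
  obtain ⟨hbig, hL0⟩ := L_big (L := L) rfl hX
  set X := log (L : ℝ) with hXdef
  have hX1 : (1 : ℝ) ≤ X := by linarith
  have hX2 : 0 < X := by linarith
  have hX3 : (X : ℝ) ^ 2 ≥ 1 := by nlinarith
  have hL1 : (1 : ℝ) ≤ L := by nlinarith
  have hLbig : (5 * 10 ^ 14 : ℝ) ≤ L := by nlinarith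
  have hL100 : 100 ≤ L := by
    have : (100 : ℝ) ≤ L := by linarith
    exact_mod_cast this
  have hLpow : (L : ℝ) ^ (2.01 : ℝ) = L * (L : ℝ) ^ (1.01 : ℝ) := by
    nth_rewrite 2 [← Real.rpow_one (L : ℝ)]
    rw [← Real.rpow_add hL0]
    norm_num
  have hLpow1 : (1 : ℝ) ≤ (L : ℝ) ^ (1.01 : ℝ) := Real.one_le_rpow hL1 (by norm_num)
  have hLle : (L : ℝ) ≤ (L : ℝ) ^ (2.01 : ℝ) := by
    rw [hLpow]
    nlinarith
  set z : ℕ := ⌈(L : ℝ) ^ (2.01 : ℝ)⌉₊ with hz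
  have hz1 : (L : ℝ) ^ (2.01 : ℝ) ≤ z := Nat.le_ceil _
  have hz2 : (z : ℝ) < (L : ℝ) ^ (2.01 : ℝ) + 1 := Nat.ceil_lt_add_one (by positivity)
  have hLz : L ≤ z := by
    have : (L : ℝ) ≤ z := hLle.trans hz1
    exact_mod_cast this
  have hzle : (z : ℝ) ≤ (L : ℝ) ^ (2.02 : ℝ) := by
    have h1 : (L : ℝ) ^ (2.02 : ℝ) = (L : ℝ) ^ (2.01 : ℝ) * (L : ℝ) ^ (0.01 : ℝ) := by
      rw [← Real.rpow_add hL0]
      norm_num
    have h2 : (2 : ℝ) ≤ (L : ℝ) ^ (0.01 : ℝ) := by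
      have h3 : (L : ℝ) ^ (0.01 : ℝ) = exp (0.01 * X) := by
        rw [Real.rpow_def_of_pos hL0, ← hXdef]
        congr 1
        ring
      rw [h3]
      have h4 := Real.add_one_le_exp (0.01 * X)
      linarith
    have h5 : (1 : ℝ) ≤ (L : ℝ) ^ (2.01 : ℝ) := by linarith
    rw [h1]
    nlinarith
  -- the number of primes
  set n : ℕ := Nat.primeCounting L / 2 with hn
  have hn2 : 2 * n ≤ Nat.primeCounting L := Nat.mul_div_le _ _
  obtain ⟨R₁, R₂, hR₁, hR₂, hdisj, hc₁, hc₂⟩ := exists_two_prime_sets L n hn2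
  have hπ := primeCounting_ge L hL100
  rw [← hXdef] at hπ
  have hnlow : (L : ℝ) / (5 * X) ≤ n := by
    have h1 : ((Nat.primeCounting L : ℕ) : ℝ) ≤ 2 * (n : ℝ) + 1 := by
      have : Nat.primeCounting L ≤ 2 * n + 1 := by omega
      exact_mod_cast this
    have h2 : (L : ℝ) / (2 * X) ≤ 2 * (n : ℝ) + 1 := hπ.trans h1
    rw [div_le_iff₀ (by positivity)] at h2 ⊢
    have h3 : (L : ℝ) ≤ (2 * (n : ℝ) + 1) * (2 * X) := h2
    have h4 : 10 * X ≤ L := by nlinarith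
    nlinarith
  have hnle : n ≤ L := by
    have h1 : Nat.primeCounting L ≤ L + 1 := Nat.count_le Nat.Prime
    omega
  have hzreal : (5 * 10 ^ 14 : ℝ) ≤ z := by
    have : (L : ℝ) ≤ z := by exact_mod_cast hLz
    linarith
  have hz1000 : 1000 ≤ z := by
    have : (1000 : ℝ) ≤ z := by linarith
    exact_mod_cast this
  refine ⟨{
    L := L, z := z, n := n, W := 2 * L + 1, k' := 3000, R₁ := R₁, R₂ := R₂
    hk' := by norm_num
    hR₁ := hR₁
    hR₂ := hR₂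
    hdisj := hdisj
    hc₁ := hc₁
    hc₂ := hc₂
    hL := by omega
    hLz := hLz
    hz1 := hz1000
    hz := ?_
    hS := ?_
    hρ := ?_
    hW := ?_ }, rfl, hzle, by norm_num, hnlow, hnle⟩
  · apply two_mul_four_pow_le 3000 _ (by positivity)
    have h1 : log (L : ℝ) ≤ log (z : ℝ) :=
      Real.log_le_log hL0 (by exact_mod_cast hLz)
    push_cast
    linarith
  · exact sum_inv_primes_numeric L z (by linarith) hLz hzle
  · apply rho_bound L z _ (by linarith) hz1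
    push_cast
    nlinarith
  · calc primorial L ≤ 4 ^ L := primorial_le_four_pow L
      _ = 2 ^ (2 * L) := by
        rw [show (4 : ℕ) = 2 ^ 2 by norm_num, ← pow_mul]
      _ < 2 ^ (2 * L + 1) := Nat.pow_lt_pow_right (by norm_num) (by omega)

lemma arith_n {X L : ℝ} (hX : 1000000000 ≤ X) (hbig : (5 * 10 ^ 14 : ℝ) * X ^ 2 ≤ L) :
    100000000000000 * X * (5 * X) ≤ L := by
  nlinarith

lemma arith_cost {n X Y L : ℝ} (hX : 1000000000 ≤ X) (hL : L ≤ n * (5 * X)) :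
    2000 * (34 * L) ≤ 340000 * X * n + 0 * Y := by
  nlinarith

lemma arith_t {u v w X : ℝ} (h2a : 0.6931471803 < w) (hu : 0 ≤ u) (hX : 1000000000 ≤ X)
    (h3 : u * w ≤ v * w + X) (hv : v = 4) : u ≤ 4 + 2 * X := by
  subst hv
  nlinarith

lemma arith_F {X n : ℝ} (hX : 1000000000 ≤ X) (hn : 100000000000000 * X ≤ n) :
    2 * ((6000 : ℝ) ^ 2 + 6000 * (5000000000 * X)) ≤ n := by
  nlinarith

lemma arith_def {t c X : ℝ} (hX : 1000000000 ≤ X) (ht : t ≤ 3 * X) (hc : c ≤ 350000 * X) :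
    t + 2 + 2 * (6000 * c) ≤ 5000000000 * X := by
  nlinarith

lemma arith_def2 {t c X : ℝ} (hX : 1000000000 ≤ X) (ht : t ≤ 3 * X) (hc : c ≤ 350000 * X) :
    t + 2 * (6000 * c) ≤ 5000000000 * X := by
  nlinarith

/-- The bound in terms of `L`. -/
theorem main_bound (L : ℕ) (hX : 1000000000 ≤ log (L : ℝ)) (a b : ℕ) (hab : a < b)
    (hbL : b < 2 ^ L) :
    ∃ T : Finset ℕ, (∀ n ∈ T, 2 ≤ n) ∧ ∑ n ∈ T, (1 : ℚ) / n = (a : ℚ) / b ∧
      (T.card : ℝ) ≤ 5000000000 * log (L : ℝ) := by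
  classical
  obtain ⟨S, hSL, hzL, hk, hnlow, hnle⟩ := exists_sys L hX
  obtain ⟨hbig, hL0⟩ := L_big (L := L) rfl hX
  set X := log (L : ℝ) with hXdef
  have hX0 : 0 < X := by linarith
  have hlog2a := Real.log_two_gt_d9
  have hlog2b := Real.log_two_lt_d9
  have hLpos : 0 < L := by exact_mod_cast hL0
  set NL := Nat.log 2 L with hNL
  have hL1 : L < 2 ^ (NL + 1) := Nat.lt_pow_succ_log_self (by norm_num) L
  have hL2 : 2 ^ NL ≤ L := Nat.pow_log_le_self 2 hLpos.ne'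
  have hXu : X ≤ (NL : ℝ) + 1 := by
    have h1 : (L : ℝ) ≤ (2 : ℝ) ^ (NL + 1) := by exact_mod_cast hL1.le
    have h2 : X ≤ log ((2 : ℝ) ^ (NL + 1)) := Real.log_le_log hL0 h1
    rw [Real.log_pow] at h2
    push_cast at h2
    have h3 : (0 : ℝ) ≤ (NL : ℝ) + 1 := by positivity
    nlinarith
  have hXl : (NL : ℝ) ≤ 2 * X := by
    have h1 : (2 : ℝ) ^ NL ≤ (L : ℝ) := by exact_mod_cast hL2
    have h2 : log ((2 : ℝ) ^ NL) ≤ X := Real.log_le_log (by positivity) h1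
    rw [Real.log_pow] at h2
    have h3 : (0 : ℝ) ≤ (NL : ℝ) := by positivity
    nlinarith
  set b₀ := 3 * (NL + 1) with hb₀
  have hb₀R : (b₀ : ℝ) = 3 * ((NL : ℝ) + 1) := by
    rw [hb₀]
    push_cast
    ring
  have hb₀4000 : 4000 ≤ b₀ := by
    have h1 : (4000 : ℝ) ≤ b₀ := by
      rw [hb₀R]
      linarith
    exact_mod_cast h1
  have hb₀7 : (b₀ : ℝ) ≤ 7 * X := by
    rw [hb₀R]
    linarith
  have hn1 : (100000000000000 : ℝ) * X ≤ S.n := by
    refine le_trans ?_ hnlow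
    rw [le_div_iff₀ (by positivity)]
    exact arith_n hX hbig
  have hnb₀ : b₀ < S.n := by
    have h1 : (b₀ : ℝ) < S.n := by
      refine lt_of_le_of_lt hb₀7 (lt_of_lt_of_le ?_ hn1)
      linarith
    exact_mod_cast h1
  have hb₀L : (S.L : ℝ) ^ 3 ≤ (2 : ℝ) ^ b₀ := by
    rw [hSL, hb₀, mul_comm 3, pow_mul]
    apply pow_le_pow_left₀ (by positivity)
    exact_mod_cast hL1.le
  have hnpos : (0 : ℝ) < S.n := lt_of_lt_of_le (by positivity) hn1
  -- the cost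
  have hcost : Cc b₀ S.n (34 * S.L) ≤ 350000 * X := by
    have hnpos' : 0 < S.n := by exact_mod_cast hnpos
    refine (Cc_le b₀ S.n (34 * S.L) hnpos').trans ?_
    have h1 : log (S.n : ℝ) ≤ X := Real.log_le_log hnpos (by exact_mod_cast hnle)
    have h2 : (L : ℝ) ≤ (S.n : ℝ) * (5 * X) := by
      rwa [div_le_iff₀ (by positivity)] at hnlow
    have h3 : 2000 * ((34 * S.L : ℕ) : ℝ) / S.n ≤ 340000 * X := by
      rw [hSL, div_le_iff₀ hnpos]
      push_cast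
      have h4 := arith_cost (Y := 0) hX h2
      linarith
    linarith
  -- the number of greedy steps
  set t := Nat.log 2 (16 * L) + 2 with ht
  have huu : 2 ^ (16 * S.L) ≤ uu 1 t := by
    rw [hSL]
    exact two_pow_le_uu _ (by omega)
  have htR : (t : ℝ) ≤ 3 * X := by
    have h1 : 2 ^ Nat.log 2 (16 * L) ≤ 16 * L := Nat.pow_log_le_self 2 (by omega)
    have h2 : (2 : ℝ) ^ Nat.log 2 (16 * L) ≤ 16 * (L : ℝ) := by exact_mod_cast h1
    have h3 : log ((2 : ℝ) ^ Nat.log 2 (16 * L)) ≤ log (16 * (L : ℝ)) :=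
      Real.log_le_log (by positivity) h2
    rw [Real.log_pow, Real.log_mul (by norm_num) hL0.ne',
      show (16 : ℝ) = 2 ^ 4 by norm_num, Real.log_pow] at h3
    have h4 : (0 : ℝ) ≤ (Nat.log 2 (16 * L) : ℝ) := by positivity
    have h5 : (Nat.log 2 (16 * L) : ℝ) ≤ 4 + 2 * X := by
      push_cast at h3
      exact arith_t hlog2a h4 hX (by linarith) rfl
    rw [ht]
    push_cast
    linarith
  have h2k : ((2 * S.k' : ℕ) : ℝ) = 6000 := by
    push_cast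
    rw [hk]
    norm_num
  have hCc0 := Cc_nonneg b₀ S.n (34 * S.L)
  have hFmax : 2 * (((2 * S.k' : ℕ) : ℝ) ^ 2 + ((2 * S.k' : ℕ) : ℝ) * (5000000000 * X)) <
      (2 : ℝ) ^ S.n := by
    rw [h2k]
    have h1 : S.n < 2 ^ S.n := Nat.lt_two_pow_self
    have h2 : (S.n : ℝ) < (2 : ℝ) ^ S.n := by exact_mod_cast h1
    refine lt_of_le_of_lt ?_ h2
    exact arith_F hX hn1
  have hFdef : (t : ℝ) + 2 + 2 * (((2 * S.k' : ℕ) : ℝ) * Cc b₀ S.n (34 * S.L)) ≤
      5000000000 * X := by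
    rw [h2k]
    exact arith_def hX htR hcost
  obtain ⟨T, hT1, hT2, hT3⟩ := S.assemble b₀ hb₀4000 hnb₀ hb₀L (by rw [hSL]; exact hzL) t huu
    (5000000000 * X) hFmax hFdef a b hab (by rw [hSL]; exact hbL)
  refine ⟨T, hT1, hT2, hT3.trans ?_⟩
  rw [h2k]
  exact arith_def2 hX htR hcost

/-- The final form of the theorem. -/
theorem erdos_egyptian : ∃ C : ℝ, ∃ b₀ : ℕ, ∀ b : ℕ, b₀ ≤ b → ∀ a : ℕ, 1 ≤ a → a < b →
    ∃ S : Finset ℕ, (∀ n ∈ S, 2 ≤ n) ∧ ∑ n ∈ S, (1 : ℚ) / n = (a : ℚ) / b ∧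
      (S.card : ℝ) ≤ C * log (log (b : ℝ)) := by
  refine ⟨10000000000, 2 ^ ⌈exp 1000000000⌉₊, ?_⟩
  intro b hb a _ hab
  set N₀ := ⌈exp (1000000000 : ℝ)⌉₊ with hN₀
  have hbpos : 0 < b := lt_of_lt_of_le (by positivity) hb
  have hbne : b ≠ 0 := hbpos.ne'
  set NB := Nat.log 2 b with hNB
  have hNB1 : N₀ ≤ NB := (Nat.le_log_iff_pow_le (by norm_num) hbne).2 hb
  have hbpow : 2 ^ NB ≤ b := Nat.pow_log_le_self 2 hbne
  have hbL : b < 2 ^ (NB + 1) := Nat.lt_pow_succ_log_self (by norm_num) b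
  have hexp : exp (1000000000 : ℝ) ≤ (NB : ℝ) := by
    have h1 : exp (1000000000 : ℝ) ≤ (N₀ : ℝ) := Nat.le_ceil _
    have h2 : (N₀ : ℝ) ≤ (NB : ℝ) := by exact_mod_cast hNB1
    exact h1.trans h2
  have hexp2 : (1000000001 : ℝ) ≤ exp (1000000000 : ℝ) := by
    have := Real.add_one_le_exp (1000000000 : ℝ)
    linarith
  have hNBbig : (1000000001 : ℝ) ≤ (NB : ℝ) := hexp2.trans hexp
  set L := NB + 1 with hL
  have hLR : (L : ℝ) = (NB : ℝ) + 1 := by
    rw [hL]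
    push_cast
    ring
  have hL0 : (0 : ℝ) < L := by
    rw [hLR]
    linarith
  have hX : (1000000000 : ℝ) ≤ log (L : ℝ) := by
    rw [Real.le_log_iff_exp_le hL0, hLR]
    linarith
  obtain ⟨T, hT1, hT2, hT3⟩ := main_bound L hX a b hab hbL
  refine ⟨T, hT1, hT2, hT3.trans ?_⟩
  -- comparison of `log L` with `log log b`
  set y := log (b : ℝ) with hy
  have hlog2a := Real.log_two_gt_d9
  have hy1 : (NB : ℝ) * log 2 ≤ y := by
    have h1 : (2 : ℝ) ^ NB ≤ (b : ℝ) := by exact_mod_cast hbpow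
    have h2 := Real.log_le_log (by positivity) h1
    rwa [Real.log_pow] at h2
  have hy2 : (NB : ℝ) ≤ 2 * y := by
    have h3 : (0 : ℝ) ≤ (NB : ℝ) := by positivity
    nlinarith
  have hy3 : (3 : ℝ) ≤ y := by nlinarith
  have hy4 : (L : ℝ) ≤ y ^ 2 := by
    rw [hLR]
    nlinarith
  have hy5 : log (L : ℝ) ≤ 2 * log y := by
    have h1 := Real.log_le_log hL0 hy4
    rwa [Real.log_pow] at h1
  push_cast at hy5
  linarith

end Vale.Agent.P012
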